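import Vale.Agent.N012X.KeyQ

namespace Vale.Agent.N012X

open Finset

/-- The data of a digit system: good digits `Q R + 1`, `R ∈ G`, dense below `U`. -/
structure Dig (Q κ H F U N₂ : ℕ) (G : Finset ℕ) : Prop where
  hQ : 0 < Q
  hH : 0 < H
  hF : Q + 4 ≤ F
  hU : (Q + 1) * (Q * H * F) ≤ U
  hN : 0 < N₂
  hNc : N₂.Coprime Q
  hG : ∀ R ∈ G, IsC Q κ (((Q * R + 1 : ℕ) : ℚ) / N₂)
  hd : ∀ y q : ℕ, H ≤ q → Q * (y + q) + 1 ≤ U →
    4 * ((Finset.Ioc y (y + q)).filter (fun R => R ∉ G)).card ≤ q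

variable {Q κ H F U N₂ : ℕ} {G : Finset ℕ}

theorem Dig.window (D : Dig Q κ H F U N₂ G) (y : ℕ) (hy : Q * (y + H) + 1 ≤ U) :
    ∃ R ∈ G, y < R ∧ R ≤ y + H := by
  by_contra hcon
  push Not at hcon
  have h1 := D.hd y H le_rfl hy
  rw [Finset.filter_true_of_mem (fun R hR hG => by
    have := Finset.mem_Ioc.1 hR
    have := hcon R hG this.1
    omega), Nat.card_Ioc] at h1
  have := D.hH
  omega

theorem Dig.two (D : Dig Q κ H F U N₂ G) (h : ℕ) (h1 : H < h) (h2 : Q * h + 1 ≤ U) :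
    IsC Q (κ + κ) (((Q * h + 2 : ℕ) : ℚ) / N₂) := by
  have hH := D.hH
  have hbad := D.hd 0 (h - 1) (by omega)
    (le_trans (Nat.add_le_add_right (Nat.mul_le_mul_left _ (by omega)) 1) h2)
  rw [Nat.zero_add] at hbad
  set B := (Finset.Ioc 0 (h - 1)).filter (fun R => R ∉ G) with hB
  set B' := (Finset.Ioc 0 (h - 1)).filter (fun R => h - R ∉ G) with hB'
  have hcard : B'.card ≤ B.card := by
    apply Finset.card_le_card_of_injOn (fun R => h - R)
    · intro R hR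
      simp only [hB', Finset.coe_filter, Finset.mem_Ioc, Set.mem_ofPred_eq] at hR
      simp only [hB, Finset.coe_filter, Finset.mem_Ioc, Set.mem_ofPred_eq]
      refine ⟨by omega, hR.2⟩
    · intro R hR R' hR' heq
      simp only [hB', Finset.coe_filter, Finset.mem_Ioc, Set.mem_ofPred_eq] at hR hR'
      simp only at heq
      omega
  have : ∃ R ∈ Finset.Ioc 0 (h - 1), R ∉ B ∪ B' := by
    by_contra hcon
    push Not at hcon
    have hsub : Finset.Ioc 0 (h - 1) ⊆ B ∪ B' := fun R hR => hcon R hR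
    have h3 := Finset.card_le_card hsub
    have h4 := Finset.card_union_le B B'
    rw [Nat.card_Ioc, Nat.sub_zero] at h3
    omega
  obtain ⟨R, hR, hR2⟩ := this
  rw [Finset.mem_union, not_or] at hR2
  have hRG : R ∈ G := by
    by_contra hcon
    exact hR2.1 (Finset.mem_filter.2 ⟨hR, hcon⟩)
  have hRG' : h - R ∈ G := by
    by_contra hcon
    exact hR2.2 (Finset.mem_filter.2 ⟨hR, hcon⟩)
  rw [Finset.mem_Ioc] at hR
  have h5 := (D.hG R hRG).add (D.hG (h - R) hRG')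
  have h6 : ((Q * R + 1 : ℕ) : ℚ) / N₂ + ((Q * (h - R) + 1 : ℕ) : ℚ) / N₂
      = ((Q * h + 2 : ℕ) : ℚ) / N₂ := by
    push_cast
    rw [Nat.cast_sub (by omega)]; ring
  rw [h6] at h5
  exact h5

theorem Dig.last (D : Dig Q κ H F U N₂ G) (q : ℕ) (h1 : Q * H * F ≤ q)
    (h2 : q ≤ (Q + 1) * (Q * H * F)) : IsC Q ((Q + 2) * κ) ((q : ℚ) / N₂) := by
  have hQ := D.hQ
  have hH := D.hH
  have hU := D.hU
  have hF := D.hF
  have hQH : 0 < Q * H := Nat.mul_pos hQ hH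
  have h3 : Q * H * (Q + 4) ≤ Q * H * F := Nat.mul_le_mul_left _ hF
  have h4 : Q * H * F ≤ (Q + 1) * (Q * H * F) := Nat.le_mul_of_pos_left _ (by omega)
  have h5 : Q * H * (Q + 4) = Q * H * Q + 4 * (Q * H) := by ring
  obtain ⟨R, hRG, hR1, hR2⟩ := D.window 0 (by rw [Nat.zero_add]; omega)
  obtain ⟨c, e, he, hq⟩ : ∃ c e, e < Q ∧ q = Q * c + e + 2 :=
    ⟨(q - 2) / Q, (q - 2) % Q, Nat.mod_lt _ hQ, by have := Nat.div_add_mod (q - 2) Q; omega⟩
  have h6 : e * R ≤ Q * H := Nat.mul_le_mul he.le (by omega)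
  have h7 : Q * H + H < c := by
    by_contra hcon
    have e1 : Q * c ≤ Q * (Q * H + H) := Nat.mul_le_mul_left _ (by omega)
    have e2 : Q * (Q * H + H) = Q * H * Q + Q * H := by ring
    have e3 : Q ≤ Q * H := Nat.le_mul_of_pos_right _ hH
    omega
  obtain ⟨h, hh⟩ : ∃ h, c = h + e * R := ⟨c - e * R, by omega⟩
  have h8 : Q * h ≤ Q * c := Nat.mul_le_mul_left _ (by omega)
  have h9 := ((D.hG R hRG).nsmul e).add (D.two h (by omega) (by omega))
  have h10 : (e : ℚ) * (((Q * R + 1 : ℕ) : ℚ) / N₂) + ((Q * h + 2 : ℕ) : ℚ) / N₂ = (q : ℚ) / N₂ := by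
    rw [hq, hh]; push_cast; ring
  rw [h10] at h9
  refine h9.mono ?_
  have : e * κ ≤ Q * κ := Nat.mul_le_mul_right _ he.le
  rw [add_mul]
  omega

theorem Dig.one (D : Dig Q κ H F U N₂ G) (s : ℕ) (hs : Q * H * F ≤ s) :
    ∃ R ∈ G, ∃ u : ℕ, (Q + 1) ^ u ≤ s ∧ (Q * R + 1) * (Q + 1) ^ u ≤ s ∧
      (s - (Q * R + 1) * (Q + 1) ^ u) * F ≤ s := by
  have hQ := D.hQ
  have hH := D.hH
  have hU := D.hU
  have hF := D.hF
  have hQH : 0 < Q * H := Nat.mul_pos hQ hH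
  have hHF : Q * H * 4 ≤ Q * H * F := Nat.mul_le_mul_left _ (by omega)
  obtain ⟨Y, hY⟩ : ∃ Y, Y = Q * H * F := ⟨_, rfl⟩
  rw [← hY] at hs hHF hU
  have hY0 : 0 < Y := by omega
  have hsY : s / Y ≠ 0 := (Nat.div_pos hs hY0).ne'
  set u := Nat.log (Q + 1) (s / Y) with hu
  have h1 : (Q + 1) ^ u ≤ s / Y := Nat.pow_log_le_self _ hsY
  have h2 : s / Y < (Q + 1) ^ (u + 1) := Nat.lt_pow_succ_log_self (by omega) _
  have hupos : 0 < (Q + 1) ^ u := by positivity
  have h1' : (Q + 1) ^ u * Y ≤ s := (Nat.le_div_iff_mul_le hY0).1 h1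
  have h2' : s < (Q + 1) ^ (u + 1) * Y := (Nat.div_lt_iff_lt_mul hY0).1 h2
  set y := s / (Q + 1) ^ u with hy
  have hy1 : Y ≤ y := by
    rw [hy, Nat.le_div_iff_mul_le hupos, mul_comm]; exact h1'
  have hy2 : y < (Q + 1) * Y := by
    rw [hy, Nat.div_lt_iff_lt_mul hupos]
    calc s < (Q + 1) ^ (u + 1) * Y := h2'
      _ = (Q + 1) * Y * (Q + 1) ^ u := by ring
  obtain ⟨c, e, he, hq⟩ : ∃ c e, e < Q ∧ y = Q * c + e + 1 :=
    ⟨(y - 1) / Q, (y - 1) % Q, Nat.mod_lt _ hQ, by have := Nat.div_add_mod (y - 1) Q; omega⟩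
  have hcH : H ≤ c := by
    by_contra hcon
    have e1 : Q * (c + 1) ≤ Q * H := Nat.mul_le_mul_left _ (by omega)
    rw [mul_add] at e1
    omega
  obtain ⟨d, rfl⟩ := Nat.exists_eq_add_of_le' hcH
  obtain ⟨R, hRG, hR1, hR2⟩ := D.window d (by omega)
  have e1 : Q * R ≤ Q * (d + H) := Nat.mul_le_mul_left _ hR2
  have e2 : Q * (d + 1) ≤ Q * R := Nat.mul_le_mul_left _ hR1
  rw [mul_add] at e1 e2 hq
  refine ⟨R, hRG, u, ?_, ?_, ?_⟩
  · exact (Nat.le_mul_of_pos_right _ hY0).trans h1'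
  · calc (Q * R + 1) * (Q + 1) ^ u ≤ y * (Q + 1) ^ u := Nat.mul_le_mul_right _ (by omega)
      _ ≤ s := Nat.div_mul_le_self s _
  · have h3 : s < (y + 1) * (Q + 1) ^ u := by
      have := Nat.lt_mul_div_succ s hupos
      rw [mul_comm]; exact this
    have h4 : (y + 1) ≤ (Q * R + 1) + Q * H := by omega
    have h5 : (y + 1) * (Q + 1) ^ u ≤ (Q * R + 1) * (Q + 1) ^ u + Q * H * (Q + 1) ^ u := by
      calc (y + 1) * (Q + 1) ^ u ≤ ((Q * R + 1) + Q * H) * (Q + 1) ^ u :=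
            Nat.mul_le_mul_right _ h4
        _ = _ := by ring
    have h6 : s - (Q * R + 1) * (Q + 1) ^ u ≤ Q * H * (Q + 1) ^ u := by omega
    calc (s - (Q * R + 1) * (Q + 1) ^ u) * F ≤ Q * H * (Q + 1) ^ u * F :=
          Nat.mul_le_mul_right _ h6
      _ = (Q + 1) ^ u * Y := by rw [hY]; ring
      _ ≤ s := h1'

theorem base_coprime (Q t : ℕ) : ((Q + 1) ^ t).Coprime Q := Nat.Coprime.pow_left t (by simp)

theorem Dig.aux (D : Dig Q κ H F U N₂ G) (w j : ℕ) :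
    ∀ s : ℕ, s ≤ (Q + 1) ^ w → s ≤ F ^ j * (Q * H * F) →
    IsC Q ((Q + 2 + j) * κ) (((s + Q * H * F : ℕ) : ℚ) / (((Q + 1) ^ w : ℕ) * N₂)) := by
  have hQ := D.hQ
  have hF := D.hF
  have hN := D.hN
  induction j with
  | zero =>
    intro s _ hs
    have h1 := D.last (s + Q * H * F) (by omega) (by
      simp only [pow_zero, one_mul] at hs
      have : 2 * (Q * H * F) ≤ (Q + 1) * (Q * H * F) := Nat.mul_le_mul_right _ (by omega)
      omega)
    have h2 := h1.div (t := (Q + 1) ^ w) (by positivity) (base_coprime Q w)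
    rw [div_div, mul_comm (N₂ : ℚ)] at h2
    exact h2
  | succ j ih =>
    intro s hsw hs
    by_cases hsmall : s ≤ Q * H * F
    · refine (ih s hsw ?_).mono (Nat.mul_le_mul_right _ (by omega))
      calc s ≤ Q * H * F := hsmall
        _ ≤ F ^ j * (Q * H * F) := Nat.le_mul_of_pos_left _ (pow_pos (by omega) j)
    · push Not at hsmall
      obtain ⟨R, hRG, u, hu1, hu2, hu3⟩ := D.one s hsmall.le
      have huw : u ≤ w := by
        have : (Q + 1) ^ u ≤ (Q + 1) ^ w := hu1.trans hsw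
        exact (Nat.pow_le_pow_iff_right (by omega)).1 this
      have hs' : s - (Q * R + 1) * (Q + 1) ^ u ≤ F ^ j * (Q * H * F) := by
        have h1 : (s - (Q * R + 1) * (Q + 1) ^ u) * F ≤ (F ^ j * (Q * H * F)) * F := by
          calc (s - (Q * R + 1) * (Q + 1) ^ u) * F ≤ s := hu3
            _ ≤ F ^ (j + 1) * (Q * H * F) := hs
            _ = _ := by ring
        exact Nat.le_of_mul_le_mul_right h1 (by omega)
      have h1 := ih (s - (Q * R + 1) * (Q + 1) ^ u) (by omega) hs'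
      have h2 := (D.hG R hRG).div (t := (Q + 1) ^ (w - u)) (by positivity) (base_coprime Q _)
      have h3 := h1.add h2
      have h4 : (((s - (Q * R + 1) * (Q + 1) ^ u) + Q * H * F : ℕ) : ℚ) /
            (((Q + 1) ^ w : ℕ) * N₂)
          + ((Q * R + 1 : ℕ) : ℚ) / N₂ / (((Q + 1) ^ (w - u) : ℕ) : ℚ)
          = ((s + Q * H * F : ℕ) : ℚ) / (((Q + 1) ^ w : ℕ) * N₂) := by
        have hw : ((Q : ℚ) + 1) ^ w = ((Q : ℚ) + 1) ^ (w - u) * ((Q : ℚ) + 1) ^ u := by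
          rw [← pow_add]; congr 1; omega
        have hN' : (N₂ : ℚ) ≠ 0 := by positivity
        rw [Nat.cast_add, Nat.cast_sub hu2]
        push_cast
        rw [hw]
        field_simp
        ring
      rw [h4] at h3
      exact h3.mono (le_of_eq (by ring))

theorem Dig.digits (D : Dig Q κ H F U N₂ G) (w j q : ℕ) (hj : (Q + 1) ^ w ≤ F ^ j)
    (hq : q ≤ (Q + 1) ^ w) :
    IsC Q ((Q + 2 + j) * κ) ((q : ℚ) / (((Q + 1) ^ w : ℕ) * N₂)) := by
  rcases Nat.eq_zero_or_pos q with h0 | hq0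
  · subst h0; simpa only [CharP.cast_eq_zero, zero_div] using isC_zero _
  have hQ := D.hQ
  have hF := D.hF
  have hN := D.hN
  have hY0 : 0 < Q * H * F := Nat.mul_pos (Nat.mul_pos hQ D.hH) (by omega)
  by_cases hbig : Q * H * F ≤ q
  · have h1 := D.aux w j (q - Q * H * F) ((Nat.sub_le _ _).trans hq) (by
      calc q - Q * H * F ≤ q := Nat.sub_le _ _
        _ ≤ F ^ j := hq.trans hj
        _ ≤ F ^ j * (Q * H * F) := Nat.le_mul_of_pos_right _ hY0)
    have h2 : q - Q * H * F + Q * H * F = q := by omega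
    rw [h2] at h1
    exact h1
  · push Not at hbig
    have hne : Q * H * F / q ≠ 0 := (Nat.div_pos hbig.le hq0).ne'
    set t := Nat.log (Q + 1) (Q * H * F / q) with ht
    have h1 : (Q + 1) ^ t ≤ Q * H * F / q := Nat.pow_log_le_self _ hne
    have h2 : Q * H * F / q < (Q + 1) ^ (t + 1) := Nat.lt_pow_succ_log_self (by omega) _
    have h1' : (Q + 1) ^ t * q ≤ Q * H * F := (Nat.le_div_iff_mul_le hq0).1 h1
    have h2' : Q * H * F < (Q + 1) ^ (t + 1) * q := (Nat.div_lt_iff_lt_mul hq0).1 h2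
    have h4 : (Q + 1) ^ (t + 1) * q ≤ (Q + 1) * (Q * H * F) := by
      rw [pow_succ', mul_assoc]
      exact Nat.mul_le_mul_left _ h1'
    have h5 := (D.last _ h2'.le h4).div
      (t := (Q + 1) ^ (w + (t + 1))) (by positivity) (base_coprime Q _)
    have h6 : (((Q + 1) ^ (t + 1) * q : ℕ) : ℚ) / N₂ / (((Q + 1) ^ (w + (t + 1)) : ℕ) : ℚ)
        = (q : ℚ) / (((Q + 1) ^ w : ℕ) * N₂) := by
      have hN' : (N₂ : ℚ) ≠ 0 := by positivity
      push_cast
      field_simp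
      ring
    rw [h6] at h5
    exact h5.mono (Nat.mul_le_mul_right _ (by omega))

/-- The tail: a small fraction with denominator coprime to `Q`. -/
theorem Dig.tail (D : Dig Q κ H F U N₂ G) (w j a b : ℕ) (hj : (Q + 1) ^ w ≤ F ^ j)
    (hb' : 0 < b) (hb : b.Coprime Q) (hbw : b ≤ (Q + 1) ^ w) (hab : a * N₂ ≤ b) :
    IsC Q (2 * ((Q + 2 + j) * κ)) ((a : ℚ) / b) := by
  have hN0 := D.hN
  obtain ⟨W, hW⟩ : ∃ W, W = (Q + 1) ^ w := ⟨_, rfl⟩
  have hW0 : 0 < W := by rw [hW]; positivity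
  have hdig := fun q => D.digits w j q hj
  rw [← hW] at hdig hbw
  set q := a * (W * N₂) / b with hq
  set r := a * (W * N₂) % b with hr
  have hqr : b * q + r = a * (W * N₂) := Nat.div_add_mod _ _
  have hrw : r ≤ W := (Nat.mod_lt _ hb').le.trans hbw
  have hqw : q ≤ W := by
    rw [hq]
    apply Nat.div_le_of_le_mul
    calc a * (W * N₂) = (a * N₂) * W := by ring
      _ ≤ b * W := Nat.mul_le_mul_right _ hab
  have h3 := (hdig q hqw).add ((hdig r hrw).div hb' hb)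
  have h4 : (q : ℚ) / (W * N₂) + (r : ℚ) / (W * N₂) / b = (a : ℚ) / b := by
    have hbQ : (b : ℚ) ≠ 0 := by positivity
    have hN' : (N₂ : ℚ) ≠ 0 := by positivity
    have hW' : (W : ℚ) ≠ 0 := by positivity
    have h5 : (b : ℚ) * q + r = a * (W * N₂) := by exact_mod_cast hqr
    field_simp
    linarith only [h5]
  rw [h4] at h3
  exact h3.mono (by omega)

end Vale.Agent.N012X
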