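import Vale.Agent.N012X.KeyQ

namespace Vale.Agent.N012X

open Finset

variable {Q r : ℕ}

/-- Sum of the reciprocals of a multiset. -/
def rs (m : Multiset ℕ) : ℚ := (m.map (fun n : ℕ => (1 : ℚ) / n)).sum

theorem rs_cons (a : ℕ) (m : Multiset ℕ) : rs (a ::ₘ m) = 1 / (a : ℚ) + rs m := by
  simp [rs]

theorem rs_add (m m' : Multiset ℕ) : rs (m + m') = rs m + rs m' := by
  simp [rs]

theorem rs_replicate (c a : ℕ) : rs (Multiset.replicate c a) = c * (1 / (a : ℚ)) := by
  simp [rs]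

theorem exists_class (hQ : 0 < Q) {n : ℕ} (hn : n.Coprime Q) (r : ℕ) :
    ∃ c : ℕ, 0 < c ∧ c ≤ Q ∧ c * n ≡ r [MOD Q] := by
  have : NeZero Q := ⟨hQ.ne'⟩
  obtain ⟨u, hu⟩ := (ZMod.isUnit_iff_coprime n Q).2 hn
  refine ⟨((r : ZMod Q) * (u⁻¹ : (ZMod Q)ˣ) - 1).val + 1, by omega, ZMod.val_lt _, ?_⟩
  rw [← ZMod.natCast_eq_natCast_iff]
  push_cast
  rw [ZMod.natCast_zmod_val, ← hu, sub_add_cancel, mul_assoc, Units.inv_mul, mul_one]

/-- Moving all denominators into the class `r`. -/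
theorem to_class (hQ : 0 < Q) (r : ℕ) (m : Multiset ℕ) (hm : ∀ n ∈ m, 0 < n ∧ n.Coprime Q) :
    ∃ m' : Multiset ℕ, (∀ n ∈ m', 0 < n ∧ n ≡ r [MOD Q]) ∧ m'.card ≤ Q * m.card ∧
      rs m' = rs m := by
  induction m using Multiset.induction_on with
  | empty => exact ⟨0, by simp, by simp, rfl⟩
  | cons a m ih =>
    obtain ⟨m', h1, h2, h3⟩ := ih (fun n hn => hm n (Multiset.mem_cons_of_mem hn))
    obtain ⟨ha0, hac⟩ := hm a (Multiset.mem_cons_self a m)
    obtain ⟨c, hc0, hcQ, hc⟩ := exists_class hQ hac r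
    refine ⟨Multiset.replicate c (c * a) + m', ?_, ?_, ?_⟩
    · intro n hn
      rcases Multiset.mem_add.1 hn with h | h
      · rw [Multiset.eq_of_mem_replicate h]
        exact ⟨Nat.mul_pos hc0 ha0, hc⟩
      · exact h1 n h
    · rw [Multiset.card_add, Multiset.card_replicate, Multiset.card_cons, mul_add]
      omega
    · rw [rs_add, rs_replicate, rs_cons, h3]
      have : (c : ℚ) ≠ 0 := by positivity
      push_cast
      field_simp

/-- `Q` more terms: `1/n` is the sum of `Q + 1` copies of `1/((Q+1) n)`. -/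
theorem extend (m₀ : Multiset ℕ) (h0 : m₀ ≠ 0) (hm : ∀ n ∈ m₀, 0 < n ∧ n ≡ r [MOD Q]) (t : ℕ) :
    ∃ m : Multiset ℕ, m.card = m₀.card + Q * t ∧ (∀ n ∈ m, 0 < n ∧ n ≡ r [MOD Q]) ∧
      rs m = rs m₀ := by
  induction t with
  | zero => exact ⟨m₀, rfl, hm, rfl⟩
  | succ t ih =>
    obtain ⟨m, h1, h2, h3⟩ := ih
    have hpos : 0 < m.card := by
      have := Multiset.card_pos.2 h0
      omega
    obtain ⟨a, ha⟩ := Multiset.card_pos_iff_exists_mem.1 hpos
    obtain ⟨m', rfl⟩ := Multiset.exists_cons_of_mem ha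
    obtain ⟨ha0, hac⟩ := h2 a ha
    refine ⟨Multiset.replicate (Q + 1) ((Q + 1) * a) + m', ?_, ?_, ?_⟩
    · rw [Multiset.card_cons] at h1
      rw [Multiset.card_add, Multiset.card_replicate, mul_add]
      omega
    · intro n hn
      rcases Multiset.mem_add.1 hn with h | h
      · rw [Multiset.eq_of_mem_replicate h]
        refine ⟨by positivity, ?_⟩
        rw [add_mul, one_mul]
        exact (Nat.ModEq.add (Nat.modEq_zero_iff_dvd.2 (Dvd.intro _ rfl)) hac).trans (by simp [Nat.ModEq])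
      · exact h2 n (Multiset.mem_cons_of_mem h)
    · rw [rs_add, rs_replicate, ← h3, rs_cons]
      push_cast
      field_simp

theorem pick (T : ℕ) (Fb : Finset ℕ) (f g : ℕ → ℕ) (hf : Set.InjOn f (Icc 1 T : Finset ℕ))
    (hg : Set.InjOn g (Icc 1 T : Finset ℕ)) (hT : 2 * Fb.card < T) :
    ∃ t ∈ Icc 1 T, f t ∉ Fb ∧ g t ∉ Fb := by
  by_contra hcon
  push Not at hcon
  have hsub : Icc 1 T ⊆ (Icc 1 T).filter (fun t => f t ∈ Fb) ∪
      (Icc 1 T).filter (fun t => g t ∈ Fb) := by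
    intro t ht
    rw [Finset.mem_union, Finset.mem_filter, Finset.mem_filter]
    by_cases h : f t ∈ Fb
    · exact Or.inl ⟨ht, h⟩
    · exact Or.inr ⟨ht, hcon t ht h⟩
  have h1 : ∀ f : ℕ → ℕ, Set.InjOn f (Icc 1 T : Finset ℕ) →
      ((Icc 1 T).filter (fun t => f t ∈ Fb)).card ≤ Fb.card := fun f hf =>
    Finset.card_le_card_of_injOn f (fun t ht => (Finset.mem_filter.1 ht).2)
      (hf.mono (fun t ht => (Finset.mem_filter.1 ht).1))
  have h2 := (Finset.card_le_card hsub).trans (Finset.card_union_le _ _)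
  have h3 := h1 f hf
  have h4 := h1 g hg
  rw [Nat.card_Icc] at h2
  omega

/-- Removing repetitions with the identities `2/(2s+1) = 1/(s+1) + 1/((s+1)(2s+1))`, `s = Q t`. -/
theorem distinct_aux (hQ : 0 < Q) (T k : ℕ) : ∀ (m : Multiset ℕ) (Fb : Finset ℕ), m.card ≤ k →
    (∀ n ∈ m, 0 < n ∧ n ≡ r [MOD Q] ∧ ∀ t ∈ Icc 1 T, 2 * (Q * t) + 1 ∣ n) →
    2 * (Fb.card + 2 * m.card) < T →
    ∃ S : Finset ℕ, S.card = m.card ∧ ∑ n ∈ S, (1 : ℚ) / n = rs m ∧
      ∀ n ∈ S, 0 < n ∧ n ≡ r [MOD Q] ∧ (n ∈ m ∨ n ∉ Fb) := by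
  induction k with
  | zero =>
    intro m Fb hk _ _
    have : m = 0 := Multiset.card_eq_zero.1 (by omega)
    subst this
    exact ⟨∅, rfl, rfl, by simp⟩
  | succ k ih =>
    intro m Fb hk hm hT
    by_cases hnd : m.Nodup
    · exact ⟨⟨m, hnd⟩, rfl, rfl, fun n hn => ⟨(hm n hn).1, (hm n hn).2.1, Or.inl hn⟩⟩
    rw [Multiset.nodup_iff_le] at hnd
    push Not at hnd
    obtain ⟨a, ha⟩ := hnd
    obtain ⟨m', rfl⟩ := Multiset.le_iff_exists_add.1 ha
    have hrw : (a ::ₘ a ::ₘ (0 : Multiset ℕ)) + m' = a ::ₘ a ::ₘ m' := by simp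
    rw [hrw] at hk hm hT ⊢
    simp only [Multiset.card_cons] at hk hT
    obtain ⟨ha0, hac, had⟩ := hm a (by simp)
    have hF : (Fb ∪ m'.toFinset).card ≤ Fb.card + m'.card :=
      (Finset.card_union_le _ _).trans (Nat.add_le_add_left (Multiset.toFinset_card_le _) _)
    obtain ⟨t, ht, ht1, ht2⟩ := pick T (Fb ∪ m'.toFinset)
      (fun t => a / (2 * (Q * t) + 1) * (Q * t + 1)) (fun t => a * (Q * t + 1))
      (by
        intro t ht t' ht' h
        obtain ⟨c, hc⟩ := had t ht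
        obtain ⟨c', hc'⟩ := had t' ht'
        simp only at h
        have e1 : a / (2 * (Q * t) + 1) = c := Nat.div_eq_of_eq_mul_right (by omega) hc
        have e2 : a / (2 * (Q * t') + 1) = c' := Nat.div_eq_of_eq_mul_right (by omega) hc'
        rw [e1, e2] at h
        have e3 : c = c' := by nlinarith only [h, hc, hc']
        have hc0 : 0 < c := Nat.pos_of_ne_zero (by rintro rfl; omega)
        rw [← e3] at h
        have e4 := Nat.eq_of_mul_eq_mul_left hc0 h
        exact Nat.eq_of_mul_eq_mul_left hQ (by omega))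
      (by
        intro t _ t' _ h
        have e4 := Nat.eq_of_mul_eq_mul_left ha0 h
        exact Nat.eq_of_mul_eq_mul_left hQ (by omega)) (by omega)
    obtain ⟨c, hc⟩ := had t ht
    have e1 : a / (2 * (Q * t) + 1) = c := Nat.div_eq_of_eq_mul_right (by omega) hc
    simp only [e1] at ht1 ht2
    have hc0 : 0 < c := Nat.pos_of_ne_zero (by rintro rfl; omega)
    have hQt : 0 < Q * t := Nat.mul_pos hQ (Finset.mem_Icc.1 ht).1
    have hone : ∀ n s : ℕ, n * (Q * s + 1) ≡ n [MOD Q] := fun n s => by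
      rw [mul_add, mul_one, mul_left_comm]
      simp [Nat.ModEq]
    have hcr : c ≡ r [MOD Q] := by
      have := hone c (2 * t)
      rw [show c * (Q * (2 * t) + 1) = a by rw [hc]; ring] at this
      exact this.symm.trans hac
    obtain ⟨u, hu⟩ : ∃ u, u = c * (Q * t + 1) := ⟨_, rfl⟩
    obtain ⟨v, hv⟩ : ∃ v, v = a * (Q * t + 1) := ⟨_, rfl⟩
    rw [← hu] at ht1
    rw [← hv] at ht2
    have huv : u ≠ v := by
      rw [hu, hv]
      intro h
      have := Nat.eq_of_mul_eq_mul_right (by omega) h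
      nlinarith only [this, hc, hc0, hQt]
    rw [Finset.mem_union, not_or, Multiset.mem_toFinset] at ht1 ht2
    obtain ⟨S, s1, s2, s3⟩ := ih m' (insert u (insert v Fb)) (by omega)
      (fun n hn => hm n (by simp [hn])) (by
        have h1 := Finset.card_insert_le u (insert v Fb)
        have h2 := Finset.card_insert_le v Fb
        omega)
    have hvS : v ∉ S := fun h => by
      rcases (s3 v h).2.2 with h | h
      · exact ht2.2 h
      · exact h (by simp)
    have huS : u ∉ insert v S := fun h => by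
      rcases Finset.mem_insert.1 h with h | h
      · exact huv h
      rcases (s3 u h).2.2 with h | h
      · exact ht1.2 h
      · exact h (by simp)
    refine ⟨insert u (insert v S), ?_, ?_, ?_⟩
    · rw [Finset.card_insert_of_notMem huS, Finset.card_insert_of_notMem hvS, s1]
      simp
    · rw [Finset.sum_insert huS, Finset.sum_insert hvS, s2, rs_cons, rs_cons, hu, hv, hc]
      have : (c : ℚ) ≠ 0 := by positivity
      push_cast
      field_simp
      ring
    · intro n hn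
      rcases Finset.mem_insert.1 hn with rfl | hn
      · exact ⟨by rw [hu]; positivity, by rw [hu]; exact (hone c t).trans hcr, Or.inr ht1.1⟩
      rcases Finset.mem_insert.1 hn with rfl | hn
      · exact ⟨by rw [hv]; positivity, by rw [hv]; exact (hone a t).trans hac, Or.inr ht2.1⟩
      obtain ⟨g1, g2, g3⟩ := s3 n hn
      refine ⟨g1, g2, g3.imp (fun h => by simp [h]) (fun h h' => h (by simp [h']))⟩

/-- The common factor that makes all the identities available. -/
def pool (Q T : ℕ) : ℕ := ∏ t ∈ Icc 1 T, (2 * (Q * t) + 1)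

theorem pool_pos (Q T : ℕ) : 0 < pool Q T := Finset.prod_pos (fun _ _ => by omega)

theorem pool_modEq (Q T : ℕ) : pool Q T ≡ 1 [MOD Q] := by
  refine Finset.prod_induction _ (fun n => n ≡ 1 [MOD Q]) (fun a b ha hb => ha.mul hb)
    (Nat.ModEq.refl 1) (fun t _ => ?_)
  show 2 * (Q * t) + 1 ≡ 1 [MOD Q]
  rw [mul_left_comm]
  simp [Nat.ModEq]

theorem pool_le (Q T : ℕ) : pool Q T ≤ (2 * (Q * T) + 1) ^ T := by
  have := Finset.prod_le_pow_card (Icc 1 T) (fun t => 2 * (Q * t) + 1) (2 * (Q * T) + 1)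
    (fun t ht => by
      have := Nat.mul_le_mul_left Q (Finset.mem_Icc.1 ht).2
      omega)
  simpa [pool] using this

/-- From repetitions to distinct denominators in the class `r`, of every admissible length. -/
theorem IsC.finsets (hQ : 0 < Q) (r : ℕ) {k : ℕ} {y : ℚ} (h : IsC Q k y) (hy : y ≠ 0) (T : ℕ) :
    ∃ k₀ ≤ Q * k, ∀ t : ℕ, 4 * (k₀ + Q * t) < T → ∃ S : Finset ℕ, S.card = k₀ + Q * t ∧
      (∀ n ∈ S, 0 < n ∧ n ≡ r [MOD Q]) ∧ ∑ n ∈ S, (1 : ℚ) / n = y / pool Q T := by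
  obtain ⟨m, h1, h2, h3⟩ := h
  obtain ⟨m₁, g1, g2, g3⟩ := to_class hQ r m h1
  have hm₁ : rs m₁ = y := g3.trans h3
  refine ⟨m₁.card, g2.trans (Nat.mul_le_mul_left _ h2), fun t ht => ?_⟩
  obtain ⟨m₂, e1, e2, e3⟩ := extend m₁ (by rintro rfl; exact hy hm₁.symm) g1 t
  obtain ⟨S, s1, s2, s3⟩ := distinct_aux (r := r) hQ T _ (m₂.map (fun n => pool Q T * n)) ∅ le_rfl
    (by
      intro n hn
      obtain ⟨a, ha, rfl⟩ := Multiset.mem_map.1 hn
      refine ⟨Nat.mul_pos (pool_pos Q T) (e2 a ha).1, ?_, fun t ht => Dvd.dvd.mul_right ?_ a⟩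
      · simpa using (pool_modEq Q T).mul (e2 a ha).2
      · exact Finset.dvd_prod_of_mem (fun t => 2 * (Q * t) + 1) ht)
    (by rw [Multiset.card_map, e1, Finset.card_empty]; omega)
  refine ⟨S, by rw [s1, Multiset.card_map, e1], fun n hn => ⟨(s3 n hn).1, (s3 n hn).2.1⟩, ?_⟩
  rw [s2, ← hm₁, ← e3, rs, rs, Multiset.map_map, ← Multiset.sum_map_div]
  congr 1
  apply Multiset.map_congr rfl
  intro n _
  simp only [Function.comp]
  push_cast
  rw [div_div, mul_comm]

end Vale.Agent.N012X
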