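import Vale.Agent.N012X.KeyQ

namespace Vale.Agent.N012X

open Finset

variable {Q r : ℕ}

theorem exists_class_in (hQ : 0 < Q) (r y : ℕ) : ∃ n, y < n ∧ n ≤ y + Q ∧ n ≡ r [MOD Q] := by
  have : NeZero Q := ⟨hQ.ne'⟩
  have h := ZMod.val_lt ((r : ZMod Q) - ((y + 1 : ℕ) : ZMod Q))
  refine ⟨y + 1 + ((r : ZMod Q) - ((y + 1 : ℕ) : ZMod Q)).val, by omega, by omega, ?_⟩
  rw [← ZMod.natCast_eq_natCast_iff, Nat.cast_add, ZMod.natCast_zmod_val]
  ring

theorem coprime_of_modEq {n : ℕ} (hr : r.Coprime Q) (h : n ≡ r [MOD Q]) : n.Coprime Q := by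
  unfold Nat.Coprime
  rw [h.gcd_eq]
  exact hr

/-- State of the greedy algorithm with denominators in the class `r`: at most `c` terms are used;
the remainder is positive, at most `1 / E`, smaller than every term, with denominator `≤ B`. -/
def St (Q r : ℕ) (x : ℚ) (c B E : ℕ) : Prop :=
  ∃ (S : Finset ℕ) (a b : ℕ), 0 < b ∧ b.Coprime Q ∧ 0 < a ∧ b ≤ B ∧ a * E ≤ b ∧ S.card ≤ c ∧
    (∀ n ∈ S, n ≡ r [MOD Q] ∧ 2 ≤ n ∧ n * a < b) ∧ ∑ n ∈ S, (1 : ℚ) / n + (a : ℚ) / b = x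

theorem St.mono {x : ℚ} {c B E c' B' E' : ℕ} (h : St Q r x c B E) (hc : c ≤ c') (hB : B ≤ B')
    (hE : E' ≤ E) : St Q r x c' B' E' := by
  obtain ⟨S, a, b, h0, h1, h2, h3, h4, h5, h6, h7⟩ := h
  exact ⟨S, a, b, h0, h1, h2, h3.trans hB, (Nat.mul_le_mul_left _ hE).trans h4, h5.trans hc, h6,
    h7⟩

theorem St.step (hQ : 0 < Q) (hr : r.Coprime Q) {x : ℚ} {c B E E' : ℕ} (h : St Q r x c B E)
    (hE : 2 * Q ≤ E) (hE' : Q * E' ≤ E * E) : St Q r x (c + 1) (B * (E' + Q)) E' := by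
  obtain ⟨S, a, b, h0, h1, h2, h3, h4, h5, h6, h7⟩ := h
  by_cases hs : a * E' ≤ b
  · exact ⟨S, a, b, h0, h1, h2, h3.trans (Nat.le_mul_of_pos_right _ (by omega)), hs, by omega,
      h6, h7⟩
  push Not at hs
  obtain ⟨n, hnr, hn1, hn2⟩ : ∃ n : ℕ, n ≡ r [MOD Q] ∧ b < a * n ∧ a * n ≤ b + a * Q := by
    have e1 := Nat.div_add_mod b a
    have e2 := Nat.mod_lt b h2
    obtain ⟨n, g1, g2, g3⟩ := exists_class_in hQ r (b / a)
    have e3 : a * (b / a + 1) ≤ a * n := Nat.mul_le_mul_left _ g1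
    have e4 : a * n ≤ a * (b / a + Q) := Nat.mul_le_mul_left _ g2
    rw [mul_add] at e3 e4
    exact ⟨n, g3, by omega, by omega⟩
  have hnE : E + 1 ≤ n := by
    by_contra hcon
    have : a * n ≤ a * E := Nat.mul_le_mul_left _ (by omega)
    omega
  have hnE' : n ≤ E' + Q := by
    by_contra hcon
    have : a * (E' + Q) ≤ a * n := Nat.mul_le_mul_left _ (by omega)
    rw [mul_add] at this
    omega
  have hnS : n ∉ S := fun hn => by
    have := (h6 n hn).2.2
    rw [mul_comm] at this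
    omega
  have ha3 : a * (2 * Q) ≤ a * E := Nat.mul_le_mul_left _ hE
  have ha4 : a * (2 * Q) = 2 * (a * Q) := by ring
  have ha5 : 0 < a * Q := Nat.mul_pos h2 hQ
  have hd : a * n - b ≤ a * Q := by omega
  refine ⟨insert n S, a * n - b, b * n, Nat.mul_pos h0 (by omega),
    Nat.Coprime.mul_left h1 (coprime_of_modEq hr hnr), by omega, Nat.mul_le_mul h3 hnE', ?_, ?_,
    ?_, ?_⟩
  · calc (a * n - b) * E' ≤ (a * Q) * E' := Nat.mul_le_mul_right _ hd
      _ = a * (Q * E') := by ring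
      _ ≤ a * (E * E) := Nat.mul_le_mul_left _ hE'
      _ = (a * E) * E := by ring
      _ ≤ b * n := Nat.mul_le_mul h4 (by omega)
  · rw [Finset.card_insert_of_notMem hnS]; omega
  · intro n' hn'
    rcases Finset.mem_insert.1 hn' with rfl | hn'
    · refine ⟨hnr, by omega, ?_⟩
      rw [mul_comm b]
      exact Nat.mul_lt_mul_of_pos_left (by omega) (by omega)
    · obtain ⟨g1, g2, g3⟩ := h6 n' hn'
      refine ⟨g1, g2, ?_⟩
      calc n' * (a * n - b) ≤ n' * (a * n) := Nat.mul_le_mul_left _ (Nat.sub_le _ _)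
        _ = (n' * a) * n := by ring
        _ < b * n := Nat.mul_lt_mul_of_pos_right g3 (by omega)
  · rw [Finset.sum_insert hnS, ← h7, Nat.cast_sub hn1.le]
    have hb : (b : ℚ) ≠ 0 := by exact_mod_cast h0.ne'
    have hn : (n : ℚ) ≠ 0 := by exact_mod_cast (by omega : n ≠ 0)
    push_cast
    field_simp
    ring

theorem St.iter (hQ : 0 < Q) (hr : r.Coprime Q) {x : ℚ} {c B : ℕ} (h : St Q r x c B (2 * Q))
    (j : ℕ) : St Q r x (c + j) (B * Q ^ j * 2 ^ (4 * 2 ^ j)) (Q * 2 ^ (2 ^ j)) := by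
  induction j with
  | zero =>
    refine h.mono le_rfl ?_ (by norm_num [mul_comm])
    rw [pow_zero, mul_one]
    exact Nat.le_mul_of_pos_right _ (by positivity)
  | succ j ih =>
    obtain ⟨G, hG⟩ : ∃ G, G = 2 ^ (2 ^ j) := ⟨_, rfl⟩
    have hG2 : 2 ≤ G := by
      rw [hG]
      calc 2 = 2 ^ 1 := rfl
        _ ≤ _ := Nat.pow_le_pow_right (by norm_num) Nat.one_le_two_pow
    have e1 : 2 ^ (2 ^ (j + 1)) = G ^ 2 := by rw [hG, ← pow_mul, pow_succ]
    have e2 : 2 ^ (4 * 2 ^ (j + 1)) = 2 ^ (4 * 2 ^ j) * G ^ 4 := by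
      rw [hG, ← pow_mul, ← pow_add]; congr 1; ring
    rw [← hG] at ih
    rw [e1, e2]
    refine (ih.step hQ hr (E' := Q * G ^ 2) (by nlinarith only [hG2])
      (le_of_eq (by ring))).mono le_rfl ?_ le_rfl
    have h4 : 4 ≤ G ^ 2 := by nlinarith only [hG2]
    have h5 : G ^ 2 + 1 ≤ G ^ 4 := by nlinarith only [h4]
    calc B * Q ^ j * 2 ^ (4 * 2 ^ j) * (Q * G ^ 2 + Q)
        = B * Q ^ (j + 1) * (2 ^ (4 * 2 ^ j) * (G ^ 2 + 1)) := by ring
      _ ≤ _ := Nat.mul_le_mul_left _ (Nat.mul_le_mul_left _ h5)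

/-- `1/d + 1/(d+Q) + ⋯`, `k` terms. -/
def apH (Q d k : ℕ) : ℚ := ∑ i ∈ range k, (1 : ℚ) / (d + Q * i : ℕ)

theorem apH_succ (Q d k : ℕ) : apH Q d (k + 1) = apH Q d k + 1 / (d + Q * k) := by
  unfold apH
  rw [Finset.sum_range_succ]
  push_cast
  ring

theorem log_le_apH {d : ℕ} (hd : 0 < d) (k : ℕ) :
    Real.log ((d + Q * k) / d) ≤ Q * (apH Q d k : ℝ) := by
  have hd' : (0 : ℝ) < d := by exact_mod_cast hd
  induction k with
  | zero => simp [apH, hd'.ne']
  | succ k ih =>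
    have hk : (0 : ℝ) < d + Q * k := by positivity
    have e1 : ((d + Q * ((k + 1 : ℕ) : ℝ)) / d) = ((d + Q * k) / d) * (1 + Q / (d + Q * k)) := by
      push_cast; field_simp; ring
    have e3 := Real.log_le_sub_one_of_pos (x := 1 + Q / (d + Q * k)) (by positivity)
    rw [e1, Real.log_mul (by positivity) (by positivity), apH_succ]
    push_cast
    have e4 : (Q : ℝ) / (d + Q * k) = Q * (1 / (d + Q * k)) := by ring
    linarith only [ih, e3, e4, mul_add (Q : ℝ) (apH Q d k : ℝ) (1 / (d + Q * k))]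

theorem class_add {d : ℕ} (hd : d ≡ r [MOD Q]) (i : ℕ) : d + Q * i ≡ r [MOD Q] := by
  simpa [Nat.ModEq] using hd

theorem rem_frac (hr : r.Coprime Q) {d : ℕ} (hd0 : 0 < d) (hd : d ≡ r [MOD Q]) (a b k : ℕ)
    (hb0 : 0 < b) (hb : b.Coprime Q) : ∃ (z : ℤ) (b' : ℕ), 0 < b' ∧ b'.Coprime Q ∧
    b' ≤ b * (d + Q * k) ^ k ∧ (a : ℚ) / b - apH Q d k = (z : ℚ) / b' := by
  induction k with
  | zero => exact ⟨a, b, hb0, hb, by simp, by simp [apH]⟩
  | succ k ih =>
    obtain ⟨z, b', h0, h1, h2, h3⟩ := ih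
    have hk : d + Q * k ≤ d + Q * (k + 1) := by rw [mul_add]; omega
    refine ⟨z * (d + Q * k) - b', b' * (d + Q * k), Nat.mul_pos h0 (by omega),
      Nat.Coprime.mul_left h1 (coprime_of_modEq hr (class_add hd k)), ?_, ?_⟩
    · rw [pow_succ, ← mul_assoc]
      exact Nat.mul_le_mul (h2.trans (Nat.mul_le_mul_left _ (Nat.pow_le_pow_left hk _))) hk
    · have hb' : (b' : ℚ) ≠ 0 := by exact_mod_cast h0.ne'
      have hd' : (d : ℚ) + Q * k ≠ 0 := by positivity
      rw [apH_succ, ← sub_sub, h3]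
      push_cast
      field_simp

/-- The first phase: consecutive denominators of the class. -/
theorem st_init (hQ : 0 < Q) (hr : r.Coprime Q) (a b : ℕ) (ha : 0 < a) (hb0 : 0 < b)
    (hb : b.Coprime Q) : ∃ k : ℕ, (k : ℝ) ≤ 3 * Real.exp (Q * ((a : ℝ) / b)) ∧
      St Q r ((a : ℚ) / b) k (b * (Q * (k + 3)) ^ k) (2 * Q) := by
  obtain ⟨d, hd1, hd2, hd⟩ := exists_class_in hQ r (2 * Q)
  have hd0 : 0 < d := by omega
  have hdR : (0 : ℝ) < d := by exact_mod_cast hd0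
  have hQR : (0 : ℝ) < Q := by exact_mod_cast hQ
  have hcast : (((a : ℚ) / b : ℚ) : ℝ) = (a : ℝ) / b := by push_cast; rfl
  have hex : ∃ k : ℕ, (a : ℚ) / b ≤ apH Q d (k + 1) := by
    obtain ⟨k, hk⟩ := exists_nat_ge (d * Real.exp (Q * ((a : ℝ) / b)))
    refine ⟨k, ?_⟩
    have h1 := log_le_apH (Q := Q) hd0 (k + 1)
    have h2 : Q * ((a : ℝ) / b) ≤ Real.log ((d + Q * ((k + 1 : ℕ) : ℝ)) / d) := by
      rw [Real.le_log_iff_exp_le (by positivity), le_div_iff₀ hdR]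
      have e : ((k : ℕ) : ℝ) ≤ ((d + Q * (k + 1) : ℕ) : ℝ) := by
        rw [Nat.cast_le]
        nlinarith only [hQ]
      push_cast at e ⊢
      linarith only [hk, e]
    have h3 : (((a : ℚ) / b : ℚ) : ℝ) ≤ (apH Q d (k + 1) : ℝ) := by
      rw [hcast]; exact le_of_mul_le_mul_left (h2.trans h1) hQR
    exact_mod_cast h3
  obtain ⟨k, hk1, hk2⟩ : ∃ k : ℕ, (a : ℚ) / b ≤ apH Q d (k + 1) ∧ apH Q d k < (a : ℚ) / b := by
    refine ⟨Nat.find hex, Nat.find_spec hex, ?_⟩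
    rcases Nat.eq_zero_or_eq_succ_pred (Nat.find hex) with h0 | h0
    · rw [h0]
      simp only [apH, Finset.range_zero, Finset.sum_empty]
      positivity
    · have := Nat.find_min hex (m := (Nat.find hex).pred) (by omega)
      rw [h0]
      exact not_le.1 this
  refine ⟨k, ?_, ?_⟩
  · have h1 := log_le_apH (Q := Q) hd0 k
    have h3 : (apH Q d k : ℝ) ≤ (((a : ℚ) / b : ℚ) : ℝ) := by exact_mod_cast hk2.le
    rw [hcast] at h3
    have h4 : Real.log ((d + Q * k) / d) ≤ Q * ((a : ℝ) / b) :=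
      h1.trans (mul_le_mul_of_nonneg_left h3 hQR.le)
    rw [Real.log_le_iff_le_exp (by positivity), div_le_iff₀ hdR] at h4
    have h5 : (d : ℝ) ≤ 3 * Q := by exact_mod_cast (by omega : d ≤ 3 * Q)
    have h6 := mul_le_mul_of_nonneg_left h5 (Real.exp_pos (Q * ((a : ℝ) / b))).le
    refine le_of_mul_le_mul_left ?_ hQR
    linarith only [h4, h6, hdR]
  · obtain ⟨z, b', h0, h1, h2, h3⟩ := rem_frac hr hd0 hd a b k hb0 hb
    have hb' : (0 : ℚ) < b' := by exact_mod_cast h0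
    have hz : 0 < z := by
      have : (0 : ℚ) < (z : ℚ) / b' := by rw [← h3]; linarith only [hk2]
      exact_mod_cast (div_pos_iff_of_pos_right hb').1 this
    obtain ⟨a', rfl⟩ := Int.eq_ofNat_of_zero_le hz.le
    have ha' : 0 < a' := by exact_mod_cast hz
    have h4 : a' * (d + Q * k) ≤ b' := by
      have : ((a' : ℤ) : ℚ) / b' ≤ 1 / (d + Q * k) := by
        rw [← h3]; linarith only [hk1, apH_succ Q d k]
      rw [div_le_div_iff₀ hb' (by positivity), one_mul] at this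
      exact_mod_cast this
    have hinj : Function.Injective (fun i : ℕ => d + Q * i) := fun i j hij =>
      Nat.eq_of_mul_eq_mul_left hQ (by simp only at hij; omega)
    refine ⟨(range k).image (fun i => d + Q * i), a', b', h0, h1, ha', h2.trans ?_, ?_, ?_, ?_, ?_⟩
    · exact Nat.mul_le_mul_left _ (Nat.pow_le_pow_left (by rw [mul_add]; omega) _)
    · exact (Nat.mul_le_mul_left _ (by omega)).trans h4
    · exact Finset.card_image_le.trans (by simp)
    · intro n hn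
      obtain ⟨i, hi, rfl⟩ := Finset.mem_image.1 hn
      rw [Finset.mem_range] at hi
      refine ⟨class_add hd i, by omega, lt_of_lt_of_le ?_ h4⟩
      rw [mul_comm]
      have := Nat.mul_lt_mul_of_pos_left hi hQ
      exact Nat.mul_lt_mul_of_pos_left (by omega) ha'
    · rw [Finset.sum_image (fun i _ j _ h => hinj h)]
      have : ((a' : ℤ) : ℚ) = a' := Int.cast_natCast a'
      rw [this] at h3
      rw [← h3]
      unfold apH
      ring

end Vale.Agent.N012X
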