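import Vale.Agent.N012X.KeyQ2
import Vale.Agent.N012X.DigitsQ
import Vale.Agent.N012X.DistinctQ
import Vale.Agent.N012X.GreedyQ

namespace Vale.Agent.N012X

open Finset

theorem core : ∃ m₀ : ℕ, ∀ Q : ℕ, 0 < Q → ∀ m ≥ m₀ + 12 * Q ^ 32, ∀ r : ℕ, r.Coprime Q →
    ∀ (x : ℚ) (c B : ℕ), St Q r x c B (2 * Q) → B ≤ 2 ^ m →
    ∃ c₀ ≤ c + 11000000 * Q ^ 3 * (Nat.log 2 m + 1), ∀ t : ℕ, c₀ + Q * t ≤ m → ∃ S : Finset ℕ,
      S.card = c₀ + Q * t ∧ (∀ n ∈ S, 2 ≤ n ∧ n ≡ r [MOD Q]) ∧ ∑ n ∈ S, (1 : ℚ) / n = x := by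
  obtain ⟨m₀, hm₀⟩ := keyQ
  refine ⟨m₀, fun Q hQ m hm r hr x c B hSt hB => ?_⟩
  have hQ1 : Q ≤ Q ^ 32 := Nat.le_self_pow (by norm_num) Q
  have hQ2 : Q * Q ≤ Q ^ 32 := by
    rw [← sq]; exact Nat.pow_le_pow_right hQ (by norm_num)
  have hQ3 : (Q + 1) * Q = Q * Q + Q := by ring
  have hQ4 : Q ^ 16 * Q ^ 16 = Q ^ 32 := by ring
  obtain ⟨N₂, hN0, hNc, hN, G, hG, hd⟩ := hm₀ Q hQ m (by omega) (by omega)
  obtain ⟨L, hL⟩ : ∃ L, L = Nat.log 2 m + 1 := ⟨_, rfl⟩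
  have hmL : m < 2 ^ L := by rw [hL]; exact Nat.lt_pow_succ_log_self (by norm_num) m
  rw [← hL]
  have hLm : L ≤ m := by
    have := Nat.log_lt_self 2 (x := m) (by omega)
    omega
  have hL1 : 1 ≤ L := by omega
  have hQQ : Q ≤ (Q + 1) * Q := Nat.le_mul_of_pos_left _ (by omega)
  have hh : (Q + 1) * Q + 4 ≤ 2 ^ (m / 2) := by
    have : m / 2 < 2 ^ (m / 2) := Nat.lt_two_pow_self
    omega
  have D : Dig Q (24 * Q + 1) (2 ^ (31 * m)) (2 ^ (m / 2)) (2 ^ (32 * m)) N₂ G := by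
    refine ⟨hQ, by positivity, by omega, ?_, hN0, hNc, hG, hd⟩
    calc (Q + 1) * (Q * 2 ^ (31 * m) * 2 ^ (m / 2))
        = ((Q + 1) * Q) * (2 ^ (31 * m) * 2 ^ (m / 2)) := by ring
      _ ≤ 2 ^ (m / 2) * (2 ^ (31 * m) * 2 ^ (m / 2)) := Nat.mul_le_mul_right _ (by omega)
      _ ≤ 2 ^ (32 * m) := by
          rw [← pow_add, ← pow_add]
          exact Nat.pow_le_pow_right (by norm_num) (by omega)
  have hpool : pool Q (4 * m + 1) ≤ m ^ (10 * m) := by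
    have h1 : 2 * (Q * (4 * m + 1)) + 1 ≤ m ^ 2 := by
      have e1 : 11 * Q * m ≤ m * m := Nat.mul_le_mul_right _ (by omega)
      have e2 : Q ≤ Q * m := Nat.le_mul_of_pos_right _ (by omega)
      nlinarith only [e1, e2, hQ]
    calc pool Q (4 * m + 1) ≤ (2 * (Q * (4 * m + 1)) + 1) ^ (4 * m + 1) := pool_le _ _
      _ ≤ (m ^ 2) ^ (4 * m + 1) := Nat.pow_le_pow_left h1 _
      _ ≤ m ^ (10 * m) := by
          rw [← pow_mul]
          exact Nat.pow_le_pow_right (by omega) (by omega)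
  obtain ⟨A, hA⟩ : ∃ A, A = 7010 * m * L := ⟨_, rfl⟩
  have hNA : pool Q (4 * m + 1) * N₂ ≤ 2 ^ A := by
    calc pool Q (4 * m + 1) * N₂ ≤ m ^ (10 * m) * m ^ (7000 * m) := Nat.mul_le_mul hpool hN
      _ = m ^ (7010 * m) := by rw [← pow_add]; congr 1; ring
      _ ≤ (2 ^ L) ^ (7010 * m) := Nat.pow_le_pow_left hmL.le _
      _ = 2 ^ A := by rw [← pow_mul, hA]; congr 1; ring
  have hA0 : A ≠ 0 := by
    rw [hA]
    exact Nat.mul_ne_zero (Nat.mul_ne_zero (by norm_num) (by omega)) (by omega)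
  obtain ⟨j, hj⟩ : ∃ j, j = Nat.log 2 A + 1 := ⟨_, rfl⟩
  have hj1 : A < 2 ^ j := by rw [hj]; exact Nat.lt_pow_succ_log_self (by norm_num) A
  have hj2 : 2 ^ j ≤ 2 * A := by
    rw [hj, pow_succ, mul_comm]
    exact Nat.mul_le_mul_left _ (Nat.pow_log_le_self 2 hA0)
  have hj3 : j < 2 ^ j := Nat.lt_two_pow_self
  have hjL : j ≤ 14 + 2 * L := by
    have h9 : A < 2 ^ (13 + 2 * L) := by
      calc A = 7010 * (m * L) := by rw [hA]; ring
        _ ≤ 2 ^ 13 * (m * m) := by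
            apply Nat.mul_le_mul (by norm_num)
            exact Nat.mul_le_mul_left _ hLm
        _ < 2 ^ 13 * (2 ^ L * 2 ^ L) := by
            apply Nat.mul_lt_mul_of_pos_left _ (by norm_num)
            exact Nat.mul_lt_mul'' hmL hmL
        _ = 2 ^ (13 + 2 * L) := by rw [← pow_add, ← pow_add]; congr 1; ring
    have h10 : Nat.log 2 A < 13 + 2 * L := Nat.log_lt_of_lt_pow hA0 h9
    omega
  obtain ⟨S₀, a, b, hb0, hbc, ha0, hbB, haE, hS₀, hS₀', hsum⟩ := hSt.iter hQ hr j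
  obtain ⟨w, hw⟩ : ∃ w, w = m + 10 * A := ⟨_, rfl⟩
  have hbw : b ≤ (Q + 1) ^ w := by
    calc b ≤ B * Q ^ j * 2 ^ (4 * 2 ^ j) := hbB
      _ ≤ (Q + 1) ^ m * (Q + 1) ^ j * (Q + 1) ^ (4 * 2 ^ j) :=
          Nat.mul_le_mul (Nat.mul_le_mul (hB.trans (Nat.pow_le_pow_left (by omega) _))
            (Nat.pow_le_pow_left (by omega) _)) (Nat.pow_le_pow_left (by omega) _)
      _ ≤ (Q + 1) ^ w := by
          rw [← pow_add, ← pow_add]
          exact Nat.pow_le_pow_right (by omega) (by omega)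
  have hwj : (Q + 1) ^ w ≤ (2 ^ (m / 2)) ^ (210303 * Q * L) := by
    have h1 : Q + 1 ≤ 2 ^ Q := Nat.lt_two_pow_self
    refine (Nat.pow_le_pow_left h1 w).trans ?_
    rw [← pow_mul, ← pow_mul]
    apply Nat.pow_le_pow_right (by norm_num)
    have h2 : w ≤ m * (70101 * L) := by
      have : m ≤ m * L := Nat.le_mul_of_pos_right _ hL1
      rw [hw, hA]
      nlinarith only [this]
    calc Q * w ≤ Q * (m * (70101 * L)) := Nat.mul_le_mul_left _ h2
      _ ≤ Q * (3 * (m / 2) * (70101 * L)) :=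
          Nat.mul_le_mul_left _ (Nat.mul_le_mul_right _ (by omega))
      _ = m / 2 * (210303 * Q * L) := by ring
  have hE : 2 ^ 2 ^ j ≤ Q * 2 ^ 2 ^ j := Nat.le_mul_of_pos_left _ hQ
  have htail := D.tail w _ (a * pool Q (4 * m + 1)) b hwj hb0 hbc hbw (by
    rw [mul_assoc]
    refine le_trans (Nat.mul_le_mul_left _ ?_) haE
    exact (hNA.trans (Nat.pow_le_pow_right (by norm_num) hj1.le)).trans hE)
  have hp := pool_pos Q (4 * m + 1)
  obtain ⟨k₀, hk₀, hfin⟩ := htail.finsets hQ r (by positivity) (4 * m + 1)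
  refine ⟨S₀.card + k₀, ?_, fun t ht => ?_⟩
  · have h1 : Q + 2 + 210303 * Q * L ≤ 210306 * Q * L := by
      have : Q ≤ Q * L := Nat.le_mul_of_pos_right _ hL1
      nlinarith only [this, hQ]
    have h2 : Q * (2 * ((Q + 2 + 210303 * Q * L) * (24 * Q + 1))) ≤ 10515300 * (Q ^ 3 * L) := by
      calc Q * (2 * ((Q + 2 + 210303 * Q * L) * (24 * Q + 1)))
          ≤ Q * (2 * ((210306 * Q * L) * (25 * Q))) := by gcongr; omega
        _ = _ := by ring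
    have h3 : L ≤ Q ^ 3 * L := Nat.le_mul_of_pos_left _ (by positivity)
    rw [mul_assoc]
    omega
  obtain ⟨S₁, s1, s2, s3⟩ := hfin t (by omega)
  have s4 : ∑ n ∈ S₁, (1 : ℚ) / n = (a : ℚ) / b := by
    rw [s3]
    have : (pool Q (4 * m + 1) : ℚ) ≠ 0 := by positivity
    push_cast
    field_simp
  have s5 : ∀ n ∈ S₁, b ≤ n * a := by
    intro n hn
    have h1 : (1 : ℚ) / n ≤ (a : ℚ) / b := by
      rw [← s4]
      exact Finset.single_le_sum (f := fun n : ℕ => (1 : ℚ) / n) (fun _ _ => by positivity) hn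
    have hn0 : (0 : ℚ) < n := by exact_mod_cast (s2 n hn).1
    rw [div_le_div_iff₀ hn0 (by positivity), one_mul, mul_comm] at h1
    exact_mod_cast h1
  have hdisj : Disjoint S₀ S₁ := by
    rw [Finset.disjoint_left]
    intro n h0 h1
    have := (hS₀' n h0).2.2
    have := s5 n h1
    omega
  refine ⟨S₀ ∪ S₁, ?_, ?_, ?_⟩
  · rw [Finset.card_union_of_disjoint hdisj, s1, add_assoc]
  · intro n hn
    rcases Finset.mem_union.1 hn with h | h
    · exact ⟨(hS₀' n h).2.1, (hS₀' n h).1⟩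
    · refine ⟨?_, (s2 n h).2⟩
      have h1 := s5 n h
      have h2 : 2 ^ 1 ≤ 2 ^ 2 ^ j := Nat.pow_le_pow_right (by norm_num) Nat.one_le_two_pow
      have h3 : a * 2 ≤ a * (Q * 2 ^ 2 ^ j) := Nat.mul_le_mul_left _ (by omega)
      by_contra hcon
      have h4 : n * a ≤ 1 * a := Nat.mul_le_mul_right _ (by omega)
      omega
  · rw [Finset.sum_union hdisj, s4, hsum]

end Vale.Agent.N012X
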