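import Mathlib.Algebra.BigOperators.Fin
import Mathlib.Algebra.Order.Field.Rat
import Mathlib.Data.Nat.ModEq
import Mathlib.Order.Interval.Finset.Nat
import Mathlib.Order.Lattice.Nat

namespace Vale.Agent.N012X

/-- `a / b = 1/n₁ + ⋯ + 1/n_k` with integers `2 ≤ n₁ < ⋯ < n_k`. -/
def Rep (a b k : ℕ) : Prop :=
  ∃ n : Fin k → ℕ, StrictMono n ∧ (∀ i, 2 ≤ n i) ∧ ∑ i, (1 : ℚ) / n i = (a : ℚ) / b

/-- `N(a,b)`: the least `k ≥ 1` such that `a / b` is a sum of `k` distinct unit fractions. -/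
noncomputable def N (a b : ℕ) : ℕ := sInf {k | 1 ≤ k ∧ Rep a b k}

/-- `N(b)`: the maximum of `N(a,b)` over `1 ≤ a < b`. -/
noncomputable def Nmax (b : ℕ) : ℕ := (Finset.Ico 1 b).sup fun a => N a b

/-- `a / b = 1/n₁ + ⋯ + 1/n_k` with integers `2 ≤ n₁ < ⋯ < n_k`, all `≡ r (mod Q)`. -/
def RepMod (Q r a b k : ℕ) : Prop :=
  ∃ n : Fin k → ℕ, StrictMono n ∧ (∀ i, 2 ≤ n i ∧ n i ≡ r [MOD Q]) ∧
    ∑ i, (1 : ℚ) / n i = (a : ℚ) / b

/-- The least `k ≥ 1` such that `a / b` is a sum of `k` distinct unit fractions with all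
denominators `≡ r (mod Q)`. -/
noncomputable def NMod (Q r a b : ℕ) : ℕ := sInf {k | 1 ≤ k ∧ RepMod Q r a b k}

/-- The maximum of `NMod Q r a b` over `1 ≤ a < b`. -/
noncomputable def NModMax (Q r b : ℕ) : ℕ := (Finset.Ico 1 b).sup fun a => NMod Q r a b

end Vale.Agent.N012X
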