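import Vale.Agent.N012X.Main

namespace Vale.Agent.N012X

open Finset Filter Asymptotics Real Vale.Agent.P012

theorem sum_le_apH {Q r : ℕ} (s : Finset ℕ) : (∀ n ∈ s, 2 ≤ n ∧ n ≡ r [MOD Q]) →
    ∑ n ∈ s, (1 : ℚ) / n ≤ apH Q 2 s.card ∧
      ∀ n, 2 ≤ n → n ≡ r [MOD Q] → (∀ m ∈ s, m < n) → 2 + Q * s.card ≤ n := by
  induction s using Finset.induction_on_max with
  | empty => exact fun _ => ⟨by simp [apH], fun n hn _ _ => by simpa using hn⟩
  | insert a s ha ih =>
    intro hs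
    obtain ⟨h1, h2⟩ := ih (fun m hm => hs m (Finset.mem_insert_of_mem hm))
    obtain ⟨g1, g2⟩ := hs a (Finset.mem_insert_self a s)
    have has : a ∉ s := fun h => lt_irrefl _ (ha a h)
    have h3 := h2 a g1 g2 ha
    rw [Finset.card_insert_of_notMem has, Finset.sum_insert has, apH_succ]
    refine ⟨?_, fun n _ hn hlt => ?_⟩
    · have h4 : ((2 : ℕ) : ℚ) + Q * s.card ≤ a := by exact_mod_cast h3
      have := one_div_le_one_div_of_le (by positivity) h4
      linarith only [this, h1]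
    · have h4 := hlt a (Finset.mem_insert_self a s)
      have h5 := Nat.le_of_dvd (by omega) ((Nat.modEq_iff_dvd' h4.le).1 (g2.trans hn.symm))
      rw [mul_add]
      omega

theorem apH_le (Q k : ℕ) : Q * (apH Q 2 (k + 1) : ℝ) ≤ Q / 2 + log (1 + Q * k / 2) := by
  induction k with
  | zero => simp [apH, div_eq_mul_inv]
  | succ k ih =>
    have e1 : (1 + Q * k / 2 : ℝ) = (1 + Q * ((k + 1 : ℕ) : ℝ) / 2) * (1 - Q / (2 + Q * (k + 1))) := by
      push_cast; field_simp; ring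
    have e2 : (0 : ℝ) < 1 - Q / (2 + Q * (k + 1)) := by
      rw [sub_pos, div_lt_one (by positivity)]
      have : (0 : ℝ) ≤ Q * k := by positivity
      linarith only [this]
    have e3 := Real.log_le_sub_one_of_pos e2
    rw [e1, Real.log_mul (by positivity) e2.ne'] at ih
    rw [apH_succ]
    push_cast at ih ⊢
    have e4 : (Q : ℝ) / (2 + Q * (k + 1)) = Q * (1 / (2 + Q * (k + 1))) := by ring
    linarith only [ih, e3, e4, mul_add (Q : ℝ) (apH Q 2 (k + 1) : ℝ) (1 / (2 + Q * (k + 1)))]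

theorem necessary (Q r a b k : ℕ) (hr : r.Coprime Q) (hab : a.Coprime b) (hb : 1 ≤ b)
    (h : RepMod Q r a b k) : b.Coprime Q ∧ k * b ≡ a * r [MOD Q] ∧
      exp (Q * ((a : ℝ) / b - 1 / 2)) ≤ 1 + Q * k := by
  obtain ⟨s, rfl, s2, s3⟩ := (tuple_iff (fun n => 2 ≤ n ∧ n ≡ r [MOD Q]) _ k).1 h
  obtain ⟨h1, h2⟩ := congr_of_sum hr hb s s2 s3
  refine ⟨h2 hab, h1, ?_⟩
  have h3 := (sum_le_apH s s2).1
  have h4 : apH Q 2 s.card ≤ apH Q 2 (s.card + 1) := by
    rw [apH_succ]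
    exact le_add_of_nonneg_right (by positivity)
  rw [s3] at h3
  have h5 : (((a : ℚ) / b : ℚ) : ℝ) ≤ (apH Q 2 (s.card + 1) : ℝ) := by exact_mod_cast h3.trans h4
  push_cast at h5
  have h6 := mul_le_mul_of_nonneg_left h5 (Nat.cast_nonneg (α := ℝ) Q)
  have h7 := apH_le Q s.card
  have h8 : (0 : ℝ) ≤ Q * s.card := by positivity
  calc exp (Q * ((a : ℝ) / b - 1 / 2)) ≤ exp (log (1 + Q * s.card / 2)) :=
        Real.exp_le_exp.2 (by linarith only [h6, h7])
    _ = 1 + Q * s.card / 2 := Real.exp_log (by positivity)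
    _ ≤ _ := by linarith only [h8]

theorem exists_short (Q r : ℕ) (hQ : 1 ≤ Q) (hr : r.Coprime Q) : ∃ C : ℝ, 0 ≤ C ∧ ∀ a b : ℕ,
    b.Coprime Q → 1 ≤ a → a < b → ∃ k : ℕ, 1 ≤ k ∧ RepMod Q r a b k ∧
      (k : ℝ) ≤ C * (1 + log (log (b + 2))) := by
  obtain ⟨C, hC, h⟩ := upper
  refine ⟨Q * (C * Q ^ 4 * exp Q + 2), by positivity, fun a b hb ha hab => ?_⟩
  obtain ⟨c, hc0, hcQ, hc⟩ := exists_class hQ hb (a * r)
  have hb1 : (1 : ℝ) ≤ b := by exact_mod_cast (by omega : 1 ≤ b)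
  have hQ' : (1 : ℝ) ≤ Q := by exact_mod_cast hQ
  have hll : 0 ≤ log (log ((b : ℝ) + 2)) := by
    apply Real.log_nonneg
    rw [Real.le_log_iff_exp_le (by positivity)]
    have := Real.exp_one_lt_d9
    linarith only [this, hb1]
  generalize hl : log (log ((b : ℝ) + 2)) = l at hll
  have he : 1 ≤ exp (Q : ℝ) := Real.one_le_exp (by positivity)
  have he2 : exp (Q * ((a : ℝ) / b)) ≤ exp Q := by
    apply Real.exp_le_exp.2
    apply mul_le_of_le_one_right (by positivity)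
    rw [div_le_one (by positivity)]
    exact_mod_cast hab.le
  obtain ⟨X, hX⟩ : ∃ X : ℝ, X = C * Q ^ 4 * (exp Q + l) := ⟨_, rfl⟩
  have hX0 : 0 ≤ X := by rw [hX]; positivity
  have h1 := Nat.le_ceil X
  have h2 := (Nat.ceil_lt_add_one hX0).le
  refine ⟨c + Q * ⌈X⌉₊, by omega, h Q r a b _ hQ hr hb ha (by omega) ?_ ?_, ?_⟩
  · rw [add_mul, mul_assoc]
    exact class_add hc _
  · rw [hl]
    have e1 : C * Q ^ 4 * (exp (Q * ((a : ℝ) / b)) + l) ≤ X := by rw [hX]; gcongr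
    have e2 : (⌈X⌉₊ : ℝ) ≤ ((c + Q * ⌈X⌉₊ : ℕ) : ℝ) := by
      rw [Nat.cast_le]
      exact (Nat.le_mul_of_pos_left _ hQ).trans (Nat.le_add_left _ _)
    linarith only [e1, e2, h1]
  · have e1 : (c : ℝ) ≤ Q := by exact_mod_cast hcQ
    have e2 : X ≤ C * Q ^ 4 * exp Q * (1 + l) := by
      rw [hX, mul_assoc (C * Q ^ 4)]
      apply mul_le_mul_of_nonneg_left _ (by positivity)
      nlinarith only [he, hll]
    have e3 := mul_le_mul_of_nonneg_left (h2.trans (add_le_add_left e2 1)) (Nat.cast_nonneg (α := ℝ) Q)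
    have e4 : (0 : ℝ) ≤ Q * l := by positivity
    push_cast
    linarith only [e1, e3, e4]

theorem theta_mod (Q r : ℕ) (hQ : 1 ≤ Q) (hr : r.Coprime Q) :
    (fun b : ℕ => (NModMax Q r b : ℝ)) =Θ[atTop ⊓ 𝓟 {b | b.Coprime Q}]
      fun b : ℕ => log (log b) := by
  obtain ⟨C, hC, h⟩ := exists_short Q r hQ hr
  constructor
  · apply IsBigO.of_bound (C * 3)
    rw [eventually_inf_principal]
    filter_upwards [eventually_ge_atTop 3, tendsto_loglog.eventually_ge_atTop 1] with b hb hll hbQ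
    rw [Real.norm_of_nonneg (Nat.cast_nonneg _), Real.norm_of_nonneg (by linarith only [hll])]
    have hb3 : (3 : ℝ) ≤ b := by exact_mod_cast hb
    have hlb : 0 < log (b : ℝ) := Real.log_pos (by linarith only [hb3])
    have h1 : log ((b : ℝ) + 2) ≤ 2 * log b := by
      have := Real.log_le_log (by positivity) (show (b : ℝ) + 2 ≤ b ^ 2 by nlinarith only [hb3])
      rwa [Real.log_pow] at this
    have h2 := Real.log_le_log (Real.log_pos (by linarith only [hb3])) h1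
    rw [Real.log_mul (by norm_num) hlb.ne'] at h2
    have h3 := Real.log_le_sub_one_of_pos (x := 2) (by norm_num)
    have h4 : C * (1 + log (log ((b : ℝ) + 2))) ≤ C * 3 * log (log b) := by
      rw [mul_assoc]
      exact mul_le_mul_of_nonneg_left (by linarith only [h2, h3, hll]) hC
    have : NModMax Q r b ≤ ⌊C * 3 * log (log b)⌋₊ := by
      apply Finset.sup_le
      intro a ha
      rw [Finset.mem_Ico] at ha
      obtain ⟨k, k1, k2, k3⟩ := h a b hbQ ha.1 ha.2
      exact (Nat.sInf_le ⟨k1, k2⟩ : NMod Q r a b ≤ k).trans (Nat.le_floor (k3.trans h4))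
    exact (Nat.cast_le.2 this).trans (Nat.floor_le (by positivity))
  · apply IsBigO.of_bound 5
    rw [eventually_inf_principal]
    filter_upwards [eventually_ge_atTop 3, tendsto_loglog.eventually_ge_atTop 0] with b hb hll hbQ
    rw [Real.norm_of_nonneg (Nat.cast_nonneg _), Real.norm_of_nonneg hll]
    refine (loglog_le hb).trans ?_
    obtain ⟨k, k1, k2, -⟩ := h (b - 1) b hbQ (by omega) (by omega)
    obtain ⟨g1, n, g2, g3, g4⟩ :=
      Nat.sInf_mem (s := {k | 1 ≤ k ∧ RepMod Q r (b - 1) b k}) ⟨k, k1, k2⟩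
    have h1 : N (b - 1) b ≤ NMod Q r (b - 1) b := Nat.sInf_le ⟨g1, n, g2, fun i => (g3 i).1, g4⟩
    have h2 : NMod Q r (b - 1) b ≤ NModMax Q r b :=
      Finset.le_sup (f := fun a => NMod Q r a b) (Finset.mem_Ico.2 ⟨by omega, by omega⟩)
    rw [N_eq] at h1
    have : (numTerms (b - 1) b : ℝ) ≤ NModMax Q r b := by exact_mod_cast h1.trans h2
    linarith only [this]

end Vale.Agent.N012X
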