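import Mathlib.Combinatorics.Pigeonhole
import Vale.Agent.P012.Bdl.B1

namespace Vale.Agent.N012X

open Finset Vale.Agent.P012

/-- `x` is a sum of at most `k` unit fractions with denominators coprime to `Q`, repetitions
allowed. -/
def IsC (Q k : ℕ) (x : ℚ) : Prop :=
  ∃ m : Multiset ℕ, (∀ n ∈ m, 0 < n ∧ n.Coprime Q) ∧ m.card ≤ k ∧
    (m.map (fun n : ℕ => (1 : ℚ) / n)).sum = x

variable {Q : ℕ}

theorem IsC.mono {k l : ℕ} {x : ℚ} (h : IsC Q k x) (hkl : k ≤ l) : IsC Q l x := by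
  obtain ⟨m, h1, h2, h3⟩ := h
  exact ⟨m, h1, h2.trans hkl, h3⟩

theorem isC_zero (k : ℕ) : IsC Q k 0 :=
  ⟨0, by simp, by simp, by simp⟩

theorem IsC.add {k l : ℕ} {x y : ℚ} (hx : IsC Q k x) (hy : IsC Q l y) :
    IsC Q (k + l) (x + y) := by
  obtain ⟨m, h1, h2, h3⟩ := hx
  obtain ⟨m', h1', h2', h3'⟩ := hy
  refine ⟨m + m', ?_, ?_, ?_⟩
  · intro n hn
    rcases Multiset.mem_add.1 hn with h | h
    · exact h1 n h
    · exact h1' n h
  · rw [Multiset.card_add]; omega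
  · rw [Multiset.map_add, Multiset.sum_add, h3, h3']

theorem IsC.nsmul {k : ℕ} {x : ℚ} (hx : IsC Q k x) (e : ℕ) : IsC Q (e * k) (e * x) := by
  induction e with
  | zero => simpa using isC_zero 0
  | succ e ih =>
    have := ih.add hx
    rw [Nat.succ_mul, Nat.cast_succ, add_mul, one_mul]
    exact this

theorem isC_one_div {n : ℕ} (hn : 0 < n) (hc : n.Coprime Q) : IsC Q 1 ((1 : ℚ) / n) :=
  ⟨{n}, by simpa using ⟨hn, hc⟩, by simp, by simp⟩

theorem IsC.div {k : ℕ} {x : ℚ} (hx : IsC Q k x) {t : ℕ} (ht : 0 < t) (hc : t.Coprime Q) :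
    IsC Q k (x / t) := by
  obtain ⟨m, h1, h2, h3⟩ := hx
  refine ⟨m.map (fun n => n * t), ?_, ?_, ?_⟩
  · intro n hn
    obtain ⟨a, ha, rfl⟩ := Multiset.mem_map.1 hn
    exact ⟨Nat.mul_pos (h1 a ha).1 ht, Nat.Coprime.mul_left (h1 a ha).2 hc⟩
  · rwa [Multiset.card_map]
  · rw [Multiset.map_map, ← h3, ← Multiset.sum_map_div]
    congr 1
    apply Multiset.map_congr rfl
    intro n _
    simp only [Function.comp]
    push_cast
    rw [div_div]

theorem isC_sum {ι : Type*} (s : Finset ι) (f : ι → ℕ) (hf : ∀ i ∈ s, 0 < f i ∧ (f i).Coprime Q) :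
    IsC Q s.card (∑ i ∈ s, (1 : ℚ) / f i) := by
  classical
  induction s using Finset.induction_on with
  | empty => simpa using isC_zero 0
  | insert a s ha ih =>
    rw [Finset.sum_insert ha, Finset.card_insert_of_notMem ha, add_comm s.card 1]
    exact (isC_one_div (hf a (Finset.mem_insert_self a s)).1
      (hf a (Finset.mem_insert_self a s)).2).add
      (ih (fun i hi => hf i (Finset.mem_insert_of_mem hi)))

theorem exists_dvd_gen {α : Type*} [Fintype α] (a : α → ℕ) (R κ : ℕ) (hR : 0 < R) (hκ : 24 ≤ κ)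
    (hα : 0 < Fintype.card α)
    (h : ∀ g, g ∣ R → 1 < g →
      (g : ℝ) ^ 5 * (collA a g : ℝ) ^ 8 ≤ (Fintype.card α : ℝ) ^ 16) :
    ∃ P : Fin κ → α × α, R ∣ ∑ j, a (P j).1 * a (P j).2 := by
  classical
  by_contra hno
  push Not at hno
  have : NeZero R := ⟨hR.ne'⟩
  have hsum0 : ∑ b : ZMod R, (esum a b) ^ κ = 0 := sum_esum_pow a κ hno
  obtain ⟨A, hA⟩ : ∃ A : ℝ, A = (Fintype.card α : ℝ) ^ 2 := ⟨_, rfl⟩
  have hApos : 0 < A := by rw [hA]; positivity
  have h0 : esum a (0 : ZMod R) = (A : ℂ) := by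
    unfold esum hsum
    simp only [zero_mul, AddChar.map_zero_eq_one, Finset.sum_const, Finset.card_univ,
      nsmul_eq_mul, mul_one, hA]
    push_cast
    ring
  have hbound : ∀ b ∈ (univ : Finset (ZMod R)).erase 0,
      ‖(esum a b) ^ κ‖ ≤ A ^ κ * (1 / (addOrderOf b : ℝ) ^ 3) := by
    intro b hb
    rw [Finset.mem_erase] at hb
    set g := addOrderOf b with hg
    have h1 : g ∣ R := by
      have := addOrderOf_dvd_card (x := b)
      rwa [ZMod.card] at this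
    have h2 : 0 < g := Nat.pos_of_dvd_of_pos h1 (NeZero.pos R)
    have h3 : g ≠ 1 := by
      rw [hg, Ne, AddMonoid.addOrderOf_eq_one_iff]
      exact hb.1
    have h5 := h g h1 (by omega)
    have h6 := norm_sq_esum_le a b
    rw [← hg] at h6
    have hgp : (0 : ℝ) < g := by exact_mod_cast h2
    have hg1 : (1 : ℝ) ≤ g := by exact_mod_cast h2
    generalize ((collA a g : ℕ) : ℝ) = c at h5 h6
    have hn := norm_nonneg (esum a b)
    rw [norm_pow, mul_one_div, le_div_iff₀ (by positivity)]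
    generalize ‖esum a b‖ = E at h6 hn ⊢
    have h7 : E ^ 8 * g ≤ A ^ 8 := by
      have := pow_le_pow_left₀ (sq_nonneg _) h6 4
      calc E ^ 8 * g = (E ^ 2) ^ 4 * g := by ring
        _ ≤ ((g : ℝ) * c ^ 2) ^ 4 * g := mul_le_mul_of_nonneg_right this hgp.le
        _ = (g : ℝ) ^ 5 * c ^ 8 := by ring
        _ ≤ _ := h5
        _ = A ^ 8 := by rw [hA]; ring
    have h9 : E ≤ A := by
      have e3 : E ^ 8 ≤ A ^ 8 := (le_mul_of_one_le_right (by positivity) hg1).trans h7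
      exact le_of_pow_le_pow_left₀ (by norm_num) hApos.le e3
    obtain ⟨d, rfl⟩ := Nat.exists_eq_add_of_le hκ
    calc E ^ (24 + d) * (g : ℝ) ^ 3 = (E ^ 8 * g) ^ 3 * E ^ d := by ring
      _ ≤ (A ^ 8) ^ 3 * A ^ d :=
          mul_le_mul (pow_le_pow_left₀ (by positivity) h7 3) (pow_le_pow_left₀ hn h9 d)
            (by positivity) (by positivity)
      _ = A ^ (24 + d) := by ring
  have h9 : A ^ κ ≤ ∑ b ∈ (univ : Finset (ZMod R)).erase 0, ‖(esum a b) ^ κ‖ := by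
    have e1 : (esum a (0 : ZMod R)) ^ κ =
        - ∑ b ∈ (univ : Finset (ZMod R)).erase 0, (esum a b) ^ κ := by
      rw [← Finset.add_sum_erase _ _ (Finset.mem_univ (0 : ZMod R))] at hsum0
      exact eq_neg_of_add_eq_zero_left hsum0
    have e2 : ‖(esum a (0 : ZMod R)) ^ κ‖ = A ^ κ := by
      rw [h0, norm_pow, Complex.norm_real, Real.norm_of_nonneg hApos.le]
    rw [← e2, e1, norm_neg]
    exact norm_sum_le _ _
  have h10 := h9.trans (Finset.sum_le_sum hbound)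
  rw [← Finset.mul_sum] at h10
  have h11 := sum_inv_cube_lt R
  have h12 : (0 : ℝ) < A ^ κ := by positivity
  nlinarith only [h10, h11, h12]

theorem exists_dvd_sumQ (hQ : 0 < Q) {n : ℕ} (x : Fin n → ℕ) (hx : ∀ i, (x i).Coprime Q)
    (R : ℕ) (hR : 0 < R)
    (h : ∀ g, g ∣ R → 1 < g → Q ^ 16 ≤ g ∧ (coll x g) ^ 4 * g ^ 3 ≤ 4 ^ (4 * n)) :
    ∃ S T : Fin (24 * Q + 1) → Finset (Fin n), R ∣ ∑ j, pr x (S j) * pr x (T j) ∧
      (∑ j, pr x (S j) * pr x (T j)).Coprime Q := by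
  classical
  have : NeZero Q := ⟨hQ.ne'⟩
  have hQR : (0 : ℝ) < Q := by exact_mod_cast hQ
  obtain ⟨c, -, hc⟩ := Finset.exists_le_card_fiber_of_nsmul_le_card_of_maps_to
    (s := (univ : Finset (Finset (Fin n)))) (t := (univ : Finset (ZMod Q)))
    (f := fun S => ((pr x S : ℕ) : ZMod Q)) (b := (2 : ℝ) ^ n / Q)
    (fun _ _ => Finset.mem_univ _) Finset.univ_nonempty (by
      simp only [Finset.card_univ, ZMod.card, Fintype.card_finset, Fintype.card_fin, nsmul_eq_mul]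
      push_cast
      rw [mul_div_cancel₀ _ hQR.ne'])
  have hcard : (2 : ℝ) ^ n / Q ≤
      Fintype.card {S : Finset (Fin n) // ((pr x S : ℕ) : ZMod Q) = c} := by
    rw [Fintype.card_subtype]; exact hc
  have hpos : (0 : ℝ) < (2 : ℝ) ^ n / Q := by positivity
  obtain ⟨P, hP⟩ := exists_dvd_gen
    (α := {S : Finset (Fin n) // ((pr x S : ℕ) : ZMod Q) = c}) (fun S => pr x S.1) R (24 * Q + 1)
    hR (by omega) (by exact_mod_cast hpos.trans_le hcard) (by
      intro g hg hg1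
      obtain ⟨g1, g2⟩ := h g hg hg1
      have e1 : collA (α := {S : Finset (Fin n) // ((pr x S : ℕ) : ZMod Q) = c})
          (fun S => pr x S.1) g ≤ coll x g := by
        unfold collA coll
        apply Finset.card_le_card_of_injOn (fun p => (p.1.1, p.2.1))
        · intro p hp
          simp only [Finset.coe_filter, Finset.mem_univ, true_and, Set.mem_ofPred_eq] at hp ⊢
          exact hp
        · intro p _ q _ hpq
          simp only [Prod.mk.injEq] at hpq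
          exact Prod.ext (Subtype.ext hpq.1) (Subtype.ext hpq.2)
      have e1' : ((collA (α := {S : Finset (Fin n) // ((pr x S : ℕ) : ZMod Q) = c})
          (fun S => pr x S.1) g : ℕ) : ℝ) ≤ coll x g := by exact_mod_cast e1
      have g1' : (Q : ℝ) ^ 16 ≤ g := by exact_mod_cast g1
      have g2' : ((coll x g : ℕ) : ℝ) ^ 4 * (g : ℝ) ^ 3 ≤ 4 ^ (4 * n) := by exact_mod_cast g2
      have hgp : (0 : ℝ) < g := by exact_mod_cast (by omega : 0 < g)
      have e2 := pow_le_pow_left₀ (Nat.cast_nonneg _) e1' 8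
      have e3 := pow_le_pow_left₀ hpos.le hcard 16
      refine (mul_le_mul_of_nonneg_left e2 (by positivity)).trans (le_trans ?_ e3)
      rw [div_pow, le_div_iff₀ (by positivity)]
      have e4 := pow_le_pow_left₀ (by positivity) g2' 2
      calc (g : ℝ) ^ 5 * ((coll x g : ℕ) : ℝ) ^ 8 * (Q : ℝ) ^ 16
          ≤ (g : ℝ) ^ 5 * ((coll x g : ℕ) : ℝ) ^ 8 * g :=
            mul_le_mul_of_nonneg_left g1' (by positivity)
        _ = (((coll x g : ℕ) : ℝ) ^ 4 * (g : ℝ) ^ 3) ^ 2 := by ring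
        _ ≤ _ := e4
        _ = ((2 : ℝ) ^ n) ^ 16 := by
            rw [show (4 : ℝ) = 2 ^ 2 by norm_num, ← pow_mul, ← pow_mul, ← pow_mul]
            congr 1; ring)
  refine ⟨fun j => (P j).1.1, fun j => (P j).2.1, hP, ?_⟩
  have hu : IsUnit c := by
    rw [← (P 0).1.2, ZMod.isUnit_iff_coprime]
    exact Nat.Coprime.prod_left (fun i _ => hx i)
  rw [← ZMod.isUnit_iff_coprime]
  have e : ((∑ j, pr x (P j).1.1 * pr x (P j).2.1 : ℕ) : ZMod Q) = c * c := by
    push_cast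
    rw [Finset.sum_congr rfl (fun j _ => by rw [(P j).1.2, (P j).2.2])]
    simp
  rw [e]
  exact hu.mul hu

theorem isC_of_good (hQ : 0 < Q) {n : ℕ} (x : Fin n → ℕ) (hx0 : ∀ i, 0 < x i)
    (hx : ∀ i, (x i).Coprime Q) (z e R M : ℕ) (hz : Q ^ 16 ≤ z) (hR0 : 0 < R) (hR : R.Coprime Q)
    (hMpos : 0 < M) (hMc : M.Coprime Q)
    (hM : ∀ p : ℕ, p.Prime → p ≤ z → p.Coprime Q → p ^ e ∣ M)
    (h1 : ∀ t, 2 ≤ t → t ≤ z → ¬ t ^ (e + 1) ∣ R)
    (h2 : ∀ g, g ∣ R → z < g → (coll x g) ^ 4 * g ^ 3 ≤ 4 ^ (4 * n)) :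
    IsC Q (24 * Q + 1) ((R : ℚ) / ((M * (∏ i, x i) ^ 2 : ℕ) : ℚ)) := by
  set Rs := Nat.gcd R M with hRs
  have hRspos : 0 < Rs := Nat.gcd_pos_of_pos_left _ hR0
  set Rr := R / Rs with hRr
  have hRs_dvd : Rs ∣ R := Nat.gcd_dvd_left _ _
  have hRs_dvdM : Rs ∣ M := Nat.gcd_dvd_right _ _
  have hmul : Rs * Rr = R := Nat.mul_div_cancel' hRs_dvd
  have hRrpos : 0 < Rr := Nat.div_pos (Nat.le_of_dvd hR0 hRs_dvd) hRspos
  have hRrR : Rr ∣ R := ⟨Rs, by rw [mul_comm]; exact hmul.symm⟩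
  have hlarge : ∀ g, g ∣ Rr → 1 < g → z < g := by
    intro g hg hg1
    by_contra hcon
    push Not at hcon
    set p := g.minFac with hp
    have hpp : p.Prime := Nat.minFac_prime (by omega)
    have hpz : p ≤ z := (Nat.minFac_le (by omega)).trans hcon
    have hpRr : p ∣ Rr := (Nat.minFac_dvd g).trans hg
    have hpc : p.Coprime Q := Nat.Coprime.coprime_dvd_left (hpRr.trans hRrR) hR
    set v := R.factorization p with hv
    have hpv : p ^ v ∣ R := Nat.ordProj_dvd R p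
    have hve : v ≤ e := by
      by_contra hc
      push Not at hc
      exact h1 p hpp.two_le hpz ((Nat.pow_dvd_pow p hc).trans hpv)
    have hpM : p ^ v ∣ M := (Nat.pow_dvd_pow p hve).trans (hM p hpp hpz hpc)
    have hpRs : p ^ v ∣ Rs := Nat.dvd_gcd hpv hpM
    have : p ^ (v + 1) ∣ R := by
      rw [← hmul, pow_succ]
      exact Nat.mul_dvd_mul hpRs hpRr
    exact Nat.pow_succ_factorization_not_dvd hR0.ne' hpp this
  obtain ⟨S, T, hST, hcop⟩ := exists_dvd_sumQ hQ x hx Rr hRrpos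
    (fun g hg hg1 => ⟨hz.trans (hlarge g hg hg1).le, h2 g (hg.trans hRrR) (hlarge g hg hg1)⟩)
  set P := ∏ i, x i with hP
  have hPpos : 0 < P := Finset.prod_pos (fun i _ => hx0 i)
  have hPc : P.Coprime Q := Nat.Coprime.prod_left (fun i _ => hx i)
  have hprpos : ∀ U, 0 < pr x U := fun U => Finset.prod_pos (fun i _ => hx0 i)
  have hprdvd : ∀ U, pr x U ∣ P := fun U =>
    Finset.prod_dvd_prod_of_subset _ _ _ (Finset.subset_univ U)
  obtain ⟨w, hw⟩ := hST
  have hsumpos : 0 < ∑ j, pr x (S j) * pr x (T j) := by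
    apply Finset.sum_pos
    · intro j _; exact Nat.mul_pos (hprpos _) (hprpos _)
    · exact ⟨0, Finset.mem_univ _⟩
  have hwpos : 0 < w := by
    rcases Nat.eq_zero_or_pos w with h0 | h0
    · rw [hw, h0] at hsumpos; simp at hsumpos
    · exact h0
  have hwc : w.Coprime Q := by
    rw [hw] at hcop
    exact Nat.Coprime.coprime_dvd_left (Dvd.intro_left _ rfl) hcop
  set D := w * (M / Rs) with hDdef
  have hMRs : 0 < M / Rs := Nat.div_pos (Nat.le_of_dvd hMpos hRs_dvdM) hRspos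
  have hDpos : 0 < D := Nat.mul_pos hwpos hMRs
  have hDc : D.Coprime Q :=
    Nat.Coprime.mul_left hwc (Nat.Coprime.coprime_dvd_left (Nat.div_dvd_of_dvd hRs_dvdM) hMc)
  have hdvd : ∀ j, pr x (S j) * pr x (T j) ∣ P ^ 2 := fun j => by
    rw [sq]; exact Nat.mul_dvd_mul (hprdvd _) (hprdvd _)
  have hUF := isC_sum (Q := Q) (Finset.univ : Finset (Fin (24 * Q + 1)))
    (fun j => D * (P ^ 2 / (pr x (S j) * pr x (T j)))) (fun j _ =>
      ⟨Nat.mul_pos hDpos (Nat.div_pos (Nat.le_of_dvd (pow_pos hPpos 2) (hdvd j))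
        (Nat.mul_pos (hprpos _) (hprpos _))),
      Nat.Coprime.mul_left hDc (Nat.Coprime.coprime_dvd_left (Nat.div_dvd_of_dvd (hdvd j))
        (Nat.Coprime.pow_left 2 hPc))⟩)
  rw [Finset.card_univ, Fintype.card_fin] at hUF
  have hPQ : (P : ℚ) ≠ 0 := by exact_mod_cast hPpos.ne'
  have hDQ : (D : ℚ) ≠ 0 := by exact_mod_cast hDpos.ne'
  have hterm : ∀ j : Fin (24 * Q + 1),
      (1 : ℚ) / ((D * (P ^ 2 / (pr x (S j) * pr x (T j))) : ℕ) : ℚ)
      = ((pr x (S j) * pr x (T j) : ℕ) : ℚ) / (D * P ^ 2) := by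
    intro j
    have ha : ((pr x (S j) * pr x (T j) : ℕ) : ℚ) ≠ 0 := by
      exact_mod_cast (Nat.mul_pos (hprpos (S j)) (hprpos (T j))).ne'
    rw [Nat.cast_mul, Nat.cast_div (hdvd j) ha]
    rw [Nat.cast_pow]
    field_simp
  rw [Finset.sum_congr rfl (fun j _ => hterm j), ← Finset.sum_div, ← Nat.cast_sum, hw] at hUF
  have hRsQ : (Rs : ℚ) ≠ 0 := by exact_mod_cast hRspos.ne'
  have hwQ : (w : ℚ) ≠ 0 := by exact_mod_cast hwpos.ne'
  have hMQ : (M : ℚ) ≠ 0 := by exact_mod_cast hMpos.ne'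
  have hDQ' : (D : ℚ) = w * (M / Rs) := by
    rw [hDdef, Nat.cast_mul, Nat.cast_div hRs_dvdM hRsQ]
  have hRQ : (R : ℚ) = Rs * Rr := by exact_mod_cast hmul.symm
  have hfin : (R : ℚ) / ((M * P ^ 2 : ℕ) : ℚ) = ((Rr * w : ℕ) : ℚ) / (D * P ^ 2) := by
    rw [hDQ', hRQ]
    push_cast
    field_simp
  rw [hfin]
  exact hUF

end Vale.Agent.N012X
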