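import Mathlib.Data.Finset.Sort
import Vale.Agent.N012X.Defs
import Vale.Agent.N012X.Core

namespace Vale.Agent.N012X

open Finset Filter Asymptotics Real Vale.Agent.P012

theorem tuple_iff (p : ℕ → Prop) (x : ℚ) (k : ℕ) :
    (∃ n : Fin k → ℕ, StrictMono n ∧ (∀ i, p (n i)) ∧ ∑ i, (1 : ℚ) / n i = x) ↔
      ∃ s : Finset ℕ, s.card = k ∧ (∀ n ∈ s, p n) ∧ ∑ n ∈ s, (1 : ℚ) / n = x := by
  constructor
  · rintro ⟨n, h1, h2, h3⟩
    refine ⟨univ.map ⟨n, h1.injective⟩, by simp, ?_, ?_⟩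
    · intro a ha
      obtain ⟨i, -, rfl⟩ := Finset.mem_map.1 ha
      exact h2 i
    · rw [Finset.sum_map]; exact h3
  · rintro ⟨s, h1, h2, h3⟩
    refine ⟨s.orderEmbOfFin h1, (s.orderEmbOfFin h1).strictMono,
      fun i => h2 _ (s.orderEmbOfFin_mem h1 i), ?_⟩
    rw [← h3]
    conv_rhs => rw [← s.map_orderEmbOfFin_univ h1, Finset.sum_map]
    rfl

theorem rep_iff (a b k : ℕ) : Rep a b k ↔ ∃ s : Finset ℕ, s.card = k ∧ IsExpansion a b s :=
  tuple_iff (fun n => 2 ≤ n) _ k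

theorem N_eq (a b : ℕ) : N a b = numTerms a b := by
  simp only [N, numTerms, rep_iff]

theorem q1 : (∀ a b : ℕ, 1 ≤ a → a < b → ∃ k, 1 ≤ k ∧ Rep a b k) ∧
    (fun b : ℕ => (Nmax b : ℝ)) =Θ[atTop] fun b : ℕ => log (log b) := by
  refine ⟨fun a b ha hab => ?_, ?_⟩
  · obtain ⟨h1, h2⟩ := numTerms_spec ha hab
    exact ⟨_, h1, (rep_iff _ _ _).2 h2⟩
  · simp only [Nmax, N_eq]
    exact (main_of_key (key_of exists_dvd_sum (vector_of collision_bound prime_count))).2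

theorem sum_frac {Q r : ℕ} (hr : r.Coprime Q) (s : Finset ℕ)
    (hs : ∀ n ∈ s, 2 ≤ n ∧ n ≡ r [MOD Q]) : ∃ A P : ℕ, 0 < P ∧ P.Coprime Q ∧
      A * r ≡ s.card * P [MOD Q] ∧ ∑ n ∈ s, (1 : ℚ) / n = (A : ℚ) / P := by
  induction s using Finset.induction_on with
  | empty => exact ⟨0, 1, one_pos, by simp, by simp [Nat.ModEq], by simp⟩
  | insert n s hn ih =>
    obtain ⟨A, P, h1, h2, h3, h4⟩ := ih (fun m hm => hs m (Finset.mem_insert_of_mem hm))
    obtain ⟨g1, g2⟩ := hs n (Finset.mem_insert_self n s)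
    refine ⟨A * n + P, P * n, Nat.mul_pos h1 (by omega),
      Nat.Coprime.mul_left h2 (coprime_of_modEq hr g2), ?_, ?_⟩
    · rw [Finset.card_insert_of_notMem hn]
      have e := (h3.mul_right n).add (g2.symm.mul_left P)
      rw [show (A * n + P) * r = A * r * n + P * r by ring,
        show (s.card + 1) * (P * n) = s.card * P * n + P * n by ring]
      exact e
    · rw [Finset.sum_insert hn, h4]
      have : (P : ℚ) ≠ 0 := by positivity
      have : (n : ℚ) ≠ 0 := by exact_mod_cast (by omega : n ≠ 0)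
      push_cast
      field_simp
      ring

theorem congr_of_sum {Q r a b : ℕ} (hr : r.Coprime Q) (hb : 0 < b) (s : Finset ℕ)
    (hs : ∀ n ∈ s, 2 ≤ n ∧ n ≡ r [MOD Q]) (h : ∑ n ∈ s, (1 : ℚ) / n = (a : ℚ) / b) :
    s.card * b ≡ a * r [MOD Q] ∧ (a.Coprime b → b.Coprime Q) := by
  obtain ⟨A, P, h1, h2, h3, h4⟩ := sum_frac hr s hs
  rw [h, div_eq_div_iff (by positivity) (by positivity)] at h4
  have h5 : a * P = A * b := by exact_mod_cast h4
  refine ⟨Nat.ModEq.cancel_right_of_coprime (c := P) h2.symm ?_, fun hab => ?_⟩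
  · have e := (h3.mul_right b).symm
    rw [show s.card * b * P = s.card * P * b by ring,
      show a * r * P = A * r * b by rw [mul_right_comm, h5]; ring]
    exact e
  · exact Nat.Coprime.coprime_dvd_left (hab.symm.dvd_of_dvd_mul_left ⟨A, by rw [h5, mul_comm]⟩) h2

theorem upper : ∃ C : ℝ, 0 ≤ C ∧ ∀ Q r a b k : ℕ, 1 ≤ Q → r.Coprime Q → b.Coprime Q →
    1 ≤ a → 1 ≤ b → k * b ≡ a * r [MOD Q] →
    C * Q ^ 4 * (exp (Q * ((a : ℝ) / b)) + log (log (b + 2))) ≤ k → RepMod Q r a b k := by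
  obtain ⟨m₀, hcore⟩ := core
  obtain ⟨K, hK⟩ : ∃ K : ℝ, K = 11000000 := ⟨_, rfl⟩
  have hK0 : 0 < K := by rw [hK]; norm_num
  obtain ⟨D, hD⟩ : ∃ D : ℝ, D = K * (2 * m₀ + 109 + 96 * K) := ⟨_, rfl⟩
  have hD0 : 2 * K ≤ D := by
    rw [hD]
    have : (0 : ℝ) ≤ K * (2 * m₀ + 107 + 96 * K) := by positivity
    linarith only [this]
  refine ⟨2 * (4 + D), by linarith only [hD0, hK0], fun Q r a b k hQ hr hb ha hb1 hk hC => ?_⟩
  obtain ⟨k₁, hk₁, hSt⟩ := st_init hQ hr a b ha hb1 hb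
  have he : 1 ≤ exp (Q * ((a : ℝ) / b)) := Real.one_le_exp (by positivity)
  have hb1' : (1 : ℝ) ≤ b := by exact_mod_cast hb1
  have hQ' : (1 : ℝ) ≤ Q := by exact_mod_cast hQ
  have hl1 : 1 ≤ log ((b : ℝ) + 2) := by
    rw [Real.le_log_iff_exp_le (by positivity)]
    have := Real.exp_one_lt_d9
    linarith only [this, hb1']
  have hll : 0 ≤ log (log ((b : ℝ) + 2)) := Real.log_nonneg hl1
  generalize exp (Q * ((a : ℝ) / b)) = E at hk₁ hC he
  have hQ4 : (1 : ℝ) ≤ Q ^ 4 := one_le_pow₀ hQ'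
  have hQ34 : (Q : ℝ) ^ 3 ≤ Q ^ 4 := pow_le_pow_right₀ hQ' (by norm_num)
  have hE4 : E ≤ Q ^ 4 * E := le_mul_of_one_le_left (by linarith only [he]) hQ4
  have hDE : D * Q ^ 4 ≤ D * Q ^ 4 * E :=
    le_mul_of_one_le_right (mul_nonneg (by linarith only [hD0, hK0]) (by positivity)) he
  have hl4 : 0 ≤ (Q : ℝ) ^ 4 * log (log ((b : ℝ) + 2)) := by positivity
  have hDl := mul_le_mul_of_nonneg_right hD0 hl4
  have hKl := mul_le_mul_of_nonneg_right (mul_le_mul_of_nonneg_left hQ34 hK0.le) hll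
  have hKl0 := mul_nonneg hK0.le hl4
  have hDQ : 0 ≤ D * Q ^ 4 := mul_nonneg (by linarith only [hD0, hK0]) (by positivity)
  have hk₁k : k₁ ≤ k := by
    have : (k₁ : ℝ) ≤ k := by linarith only [hk₁, hC, hDE, hDl, hKl0, hE4, he, hl4, hDQ]
    exact_mod_cast this
  obtain ⟨v, hv⟩ : ∃ v, v = Nat.log 2 b + 1 := ⟨_, rfl⟩
  have hbv : b < 2 ^ v := by rw [hv]; exact Nat.lt_pow_succ_log_self (by norm_num) b
  obtain ⟨m, hm⟩ : ∃ m, m = m₀ + 12 * Q ^ 32 + k + Q * (k + 3) * k + v := ⟨_, rfl⟩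
  obtain ⟨c₀, hc₀, hfin⟩ := hcore Q hQ m (by omega) r hr _ _ _ hSt (by
    have h1 : Q * (k₁ + 3) ≤ 2 ^ (Q * (k + 3)) :=
      (Nat.mul_le_mul_left _ (by omega)).trans Nat.lt_two_pow_self.le
    calc b * (Q * (k₁ + 3)) ^ k₁ ≤ 2 ^ v * (2 ^ (Q * (k + 3))) ^ k :=
          Nat.mul_le_mul hbv.le ((Nat.pow_le_pow_left h1 _).trans
            (Nat.pow_le_pow_right (by positivity) hk₁k))
      _ ≤ 2 ^ m := by
          rw [← pow_mul, ← pow_add]
          exact Nat.pow_le_pow_right (by norm_num) (by omega))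
  have hc₀k : c₀ ≤ k := by
    have h1 : m ≤ (m₀ + 14) * Q ^ 32 * (k + 3) ^ 2 * v := by
      have f1 : Q ≤ Q ^ 32 := Nat.le_self_pow (by norm_num) Q
      generalize Q ^ 32 = W at f1 hm
      have e1 : m₀ + 12 * W + k + Q * (k + 3) * k + 1 ≤ (m₀ + 14) * W * (k + 3) ^ 2 := by
        have f2 : Q * ((k + 3) * k) ≤ W * (k + 3) ^ 2 :=
          Nat.mul_le_mul f1 (by nlinarith only [])
        have f3 : k + 1 ≤ W * (k + 3) ^ 2 := by
          rw [← one_mul (k + 1)]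
          exact Nat.mul_le_mul (hQ.trans f1) (by nlinarith only [])
        have f4 : W ≤ W * (k + 3) ^ 2 := Nat.le_mul_of_pos_right _ (by positivity)
        have f5 : m₀ ≤ m₀ * (W * (k + 3) ^ 2) := Nat.le_mul_of_pos_right _ (by omega)
        nlinarith only [f2, f3, f4, f5]
      have e2 := Nat.mul_le_mul_right v e1
      have e3 : m₀ + 12 * W + k + Q * (k + 3) * k ≤ (m₀ + 12 * W + k + Q * (k + 3) * k) * v :=
        Nat.le_mul_of_pos_right _ (by omega)
      rw [add_mul, one_mul] at e2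
      omega
    have hm0 : m ≠ 0 := by omega
    have h2 := natLog_le_log hm0
    have hv0 : (0 : ℝ) < v := by exact_mod_cast (by omega : 0 < v)
    have h3 : log m ≤ log (m₀ + 14) + 32 * log Q + 2 * log (k + 3) + log v := by
      have e1 : (m : ℝ) ≤ (m₀ + 14) * Q ^ 32 * (k + 3) ^ 2 * v := by exact_mod_cast h1
      have e2 := Real.log_le_log (by exact_mod_cast Nat.pos_of_ne_zero hm0) e1
      rw [Real.log_mul (by positivity) hv0.ne', Real.log_mul (by positivity) (by positivity),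
        Real.log_mul (by positivity) (by positivity), Real.log_pow, Real.log_pow] at e2
      exact_mod_cast e2
    have h4 : log v ≤ 2 + log (log ((b : ℝ) + 2)) := by
      have e1 := natLog_le_log (x := b) (by omega)
      have e2 : log b ≤ log ((b : ℝ) + 2) := Real.log_le_log (by positivity) (by linarith only [])
      have e3 : (v : ℝ) ≤ 3 * log ((b : ℝ) + 2) := by
        rw [hv]; push_cast; linarith only [e1, e2, hl1]
      have e4 := Real.log_le_log hv0 e3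
      rw [Real.log_mul (by norm_num) (by positivity)] at e4
      have e5 := Real.log_le_sub_one_of_pos (x := 3) (by norm_num)
      linarith only [e4, e5]
    have h5 := Real.log_le_sub_one_of_pos (x := (m₀ + 14 : ℝ)) (by positivity)
    have h5' := Real.log_le_sub_one_of_pos (x := (Q : ℝ)) (by positivity)
    have h6 : K * Q ^ 3 * log (k + 3) ≤ K * Q ^ 3 * (24 * K + 3 * Q) + (k + 3) / 24 := by
      have e1 := Real.log_le_sub_one_of_pos (x := ((k : ℝ) + 3) / (24 * K * Q ^ 3)) (by positivity)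
      rw [Real.log_div (by positivity) (by positivity),
        Real.log_mul (by positivity) (by positivity), Real.log_pow] at e1
      have e2 := Real.log_le_sub_one_of_pos (x := 24 * K) (by positivity)
      have e3 : K * Q ^ 3 * (((k : ℝ) + 3) / (24 * K * Q ^ 3)) = (k + 3) / 24 := by
        field_simp
      have e4 : log (k + 3) ≤ (24 * K + 3 * Q) + ((k : ℝ) + 3) / (24 * K * Q ^ 3) := by
        push_cast at e1
        linarith only [e1, e2, h5']
      have e5 := mul_le_mul_of_nonneg_left e4 (by positivity : (0 : ℝ) ≤ K * Q ^ 3)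
      linarith only [e3, e5]
    have h7 : (Nat.log 2 m : ℝ) + 1 ≤ 2 * m₀ + 33 + 64 * Q + 4 * log (k + 3) +
        2 * log (log ((b : ℝ) + 2)) := by linarith only [h2, h3, h4, h5, h5']
    have h8 := mul_le_mul_of_nonneg_left h7 (by positivity : (0 : ℝ) ≤ K * Q ^ 3)
    have h9 : (c₀ : ℝ) ≤ k₁ + K * Q ^ 3 * ((Nat.log 2 m : ℝ) + 1) := by
      rw [hK]; exact_mod_cast hc₀
    have h10 := mul_le_mul_of_nonneg_left hQ34
      (by positivity : (0 : ℝ) ≤ K * (2 * m₀ + 33 + 96 * K))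
    have h11 : D * Q ^ 4 = K * (2 * m₀ + 109 + 96 * K) * Q ^ 4 := by rw [hD]
    have : (c₀ : ℝ) ≤ k := by
      linarith only [h6, h8, h9, h10, h11, hk₁, hC, hDE, hDl, hKl, hKl0, hE4, he, hl4, hDQ]
    exact_mod_cast this
  obtain ⟨S, s1, s2, s3⟩ := hfin 0 (by omega)
  have h1 := (congr_of_sum hr hb1 S s2 s3).1
  rw [s1, mul_zero, add_zero] at h1
  have h2 : c₀ ≡ k [MOD Q] := Nat.ModEq.cancel_right_of_coprime hb.symm (h1.trans hk.symm)
  obtain ⟨t, ht⟩ := (Nat.modEq_iff_dvd' hc₀k).1 h2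
  obtain ⟨S', s1', s2', s3'⟩ := hfin t (by omega)
  exact (tuple_iff (fun n => 2 ≤ n ∧ n ≡ r [MOD Q]) _ k).2 ⟨S', by omega, s2', s3'⟩

end Vale.Agent.N012X
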